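import Vale.Agent.P146.H980.C3Fin

/-!
`c3_cx`: the last square of the row identity in the language of block conditioning (P146, block
07b-C3UP). `K` frozen, `Rw` the row, `K' = K ∪ Rw`, `w = Z ^ x`, `P` an odd observable,
`N = cx K' w ⟨P⟩`.
-/

open MeasureTheory ProbabilityTheory

namespace Vale.Agent.P146.H980

open Vale.Agent.P157.Lv Vale.Agent.P146.H425 Vale.Agent.P146.H196
open Vale.Agent.P146.H646 (glue wn cx Wt BM)
open Vale.Agent.P146.H487 (gs)
open Vale.Agent.P146.H161 (lvK mix_lvK lc)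
open Vale.Agent.P146.H347 (Sym ac)

set_option linter.unusedSectionVars false

variable {ι : Type} [Fintype ι] [DecidableEq ι] {Ω : Type} [MeasurableSpace Ω]
  {μ : Measure Ω} {S : ι → Ω → ℝ} {M0 : ℝ}

/-! ### parity -/

section parity

variable {ε : ι → ℝ} {T : Ω → Ω} {K Rw : Finset ι}

/-- flipping the row of the frozen point is a symmetry of the coordinates of `K ∪ Rw` -/
lemma glue_neg {F : (ι → ℝ) → ℝ} (hd : H646.Dep (K ∪ Rw) F) (hKR : Disjoint K Rw)
    (hεK : ∀ e ∈ K, ε e = 1) (hεR : ∀ e ∈ Rw, ε e = -1) (z y : ι → ℝ) :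
    F (glue K z (-y)) = F (ac 1 ε (glue K z y)) := by
  refine H347.Dep.congr hd fun e he => ?_
  by_cases h : e ∈ K
  · simp [ac, glue, h, hεK e h]
  · have h2 : e ∈ Rw := (Finset.mem_union.1 he).resolve_left h
    simp [ac, glue, h, hεR e h2]

lemma wn_ac (hs : Sym μ S 1 ε T) (k x : ℝ) (K : Finset ι) (z : ι → ℝ) :
    wn (gs ι) K (Zxm μ k S x) (ac 1 ε z) = wn (gs ι) K (Zxm μ k S x) z := by
  unfold wn
  have h1 := H347.integral_ac 1 hs.sq (fun y => Zxm μ k S x (glue K (ac 1 ε z) y))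
  refine (h1.symm.trans ?_)
  refine integral_congr_ae (Filter.Eventually.of_forall fun y => ?_)
  show Zxm μ k S x (glue K (ac 1 ε z) (ac 1 ε y)) = _
  rw [← H347.ac_glue 1 ε (K := K) (K' := K) (fun e => by simp) z y, hs.Zx]

lemma cx_ac_neg (hs : Sym μ S 1 ε T) (k x : ℝ) (K : Finset ι) {P : Ω → ℝ}
    (hP : ∀ s, P (T s) = -P s) (z : ι → ℝ) :
    cx (gs ι) K (Zxm μ k S x) (avm μ k S P) (ac 1 ε z) =
      -cx (gs ι) K (Zxm μ k S x) (avm μ k S P) z := by
  have h1 := hs.cx k x (K := K) (K' := K) (fun e => by simp) (avm μ k S P) z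
  rw [← h1]
  have h2 : (fun z => avm μ k S P (ac 1 ε z)) = fun z => -avm μ k S P z := by
    funext z
    exact hs.av_neg k hP z
  rw [h2]
  unfold cx
  rw [← neg_div, ← integral_neg]
  congr 1
  refine integral_congr_ae (Filter.Eventually.of_forall fun z' => ?_)
  simp only
  ring

end parity

/-! ### the theorem -/

/-- the observable as a function of one replica -/
def one (P : Ω → ℝ) (w : Unit → Ω) : ℝ := P (w ())

lemma bk_one (hG : GM μ S M0) (k x : ℝ) (K : Finset ι) (P : Ω → ℝ) :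
    bk μ k x S K Unit (one P) = cx (gs ι) K (Zxm μ k S x) (avm μ k S P) := by
  funext z
  unfold bk
  congr 1
  funext u
  exact hG.avR_one k () P u

/-- **The last square of the row identity**, `K` frozen. -/
theorem c3_cx (hG : GM μ S M0) (k : ℝ) {x : ℝ} (hx0 : 0 ≤ x) (hx1 : x ≤ 1) {K Rw : Finset ι}
    (hKR : Disjoint K Rw) {P : Ω → ℝ} (hP : Measurable P) {C0 : ℝ} (hC : ∀ s, |P s| ≤ C0)
    {ε : ι → ℝ} {T : Ω → Ω} (hs : Sym μ S 1 ε T) (hεK : ∀ e ∈ K, ε e = 1)
    (hεR : ∀ e ∈ Rw, ε e = -1) (hPT : ∀ s, P (T s) = -P s)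
    (hL : ∀ s, (x * k) ^ 2 * ∑ e ∈ Rw, S e s ^ 2 ≤ 1 / 4) (u : ι → ℝ) {δ : ℝ} (hδ : 0 < δ)
    (z : ι → ℝ) :
    cx (gs ι) K (Zxm μ k S x)
      (fun y => (cx (gs ι) (K ∪ Rw) (Zxm μ k S x) (avm μ k S P) y - lc Rw u y) ^ 2) z ≤
      6 * ∑ e ∈ Rw, (cx (gs ι) K (Zxm μ k S x)
        (fun y => y e * cx (gs ι) (K ∪ Rw) (Zxm μ k S x) (avm μ k S P) y) z - u e) ^ 2 +
      6000000 * C0 ^ 2 * (δ * cx (gs ι) K (Zxm μ k S x) (q2 μ k x S (K ∪ Rw) Rw) z +
        cx (gs ι) K (Zxm μ k S x) (q4 μ k x S (K ∪ Rw) Rw) z / δ) := by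
  have hw := hG.wt k x
  have hK : K ⊆ K ∪ Rw := Finset.subset_union_left
  have hR : Rw ⊆ K ∪ Rw := Finset.subset_union_right
  have hPb : Bm P := Bm.of hP hC
  have hh : Bm (one P) := hPb.at ()
  have hhC : ∀ w, |one P w| ≤ C0 := fun w => hC _
  have eN := bk_one hG k x (K ∪ Rw) P
  set N := cx (gs ι) (K ∪ Rw) (Zxm μ k S x) (avm μ k S P) with hN
  have dN : H646.Dep (K ∪ Rw) N := H646.dep_cx _
  have egN : EG N := by rw [← eN]; exact eg_bk hG k x _ hh
  have hexp : ∀ y, Real.exp (Real.log (wn (gs ι) (K ∪ Rw) (Zxm μ k S x) y)) =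
      wn (gs ι) (K ∪ Rw) (Zxm μ k S x) y := fun y => Real.exp_log (hw.wn_pos _ y)
  -- the tilt
  have hT : Tilt (fun y => Real.log (wn (gs ι) (K ∪ Rw) (Zxm μ k S x) (glue K z y)))
      (fun e y => v1 μ k x S (K ∪ Rw) Rw e (glue K z y)) (1 / 2) := by
    refine ⟨fun e => ?_, fun e => eg_glue (eg_v1 hG k x e) K z, eg_glue (eg_half hG k x _) K z,
      fun y => sum_v1 hG k Rw (K ∪ Rw) hL _, by norm_num, le_rfl⟩
    exact pd_fz hKR (dep_wn hG k x) (fun he => pd_logwn' hG k x Rw he hR)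
      (fun he y => v1_off hG k x he y) z
  have hVe : ∀ y, (fun y => Real.log (wn (gs ι) (K ∪ Rw) (Zxm μ k S x) (glue K z y))) (-y) =
      (fun y => Real.log (wn (gs ι) (K ∪ Rw) (Zxm μ k S x) (glue K z y))) y := by
    intro y
    show Real.log (wn (gs ι) (K ∪ Rw) (Zxm μ k S x) (glue K z (-y))) =
      Real.log (wn (gs ι) (K ∪ Rw) (Zxm μ k S x) (glue K z y))
    rw [glue_neg (F := wn (gs ι) (K ∪ Rw) (Zxm μ k S x)) (H646.dep_wn _) hKR hεK hεR z y,
      wn_ac hs]
  have hO : Odd3 (fun y => N (glue K z y))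
      (fun e y => N1 μ k x S (K ∪ Rw) Rw Unit (one P) e (glue K z y))
      (fun e f y => N2 μ k x S (K ∪ Rw) Rw Unit (one P) e f (glue K z y))
      (fun e f g y => N3 μ k x S (K ∪ Rw) Rw Unit (one P) e f g (glue K z y)) := by
    refine ⟨fun y => ?_, fun e => ?_, fun e f => ?_, fun e f g => ?_, eg_glue egN K z,
      fun e => eg_glue (eg_N1 hG k x hh e) K z, fun e f => eg_glue (eg_N2 hG k x hh e f) K z,
      fun e f g => eg_glue (eg_N3 hG k x hh e f g) K z⟩
    · show N (glue K z (-y)) = -N (glue K z y)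
      rw [glue_neg dN hKR hεK hεR z y, hN, cx_ac_neg hs k x _ hPT]
    · exact pd_fz hKR dN (fun he => by rw [← eN]; exact pd_N0 hG k x hR hh he)
        (fun he y => N1_off hG k x he _ y) z
    · exact pd_fz hKR (dep_N1 hG k x e) (fun hf => pd_N1 hG k x hR hh e hf)
        (fun hf y => N2_off hG k x e hf _ y) z
    · exact pd_fz hKR (dep_N2 hG k x e f) (fun hg => pd_N2 hG k x hR hh e f hg)
        (fun hg y => N3_off hG k x e f hg _ y) z
  have hV2 : ∀ e f, PD f (fun y => v1 μ k x S (K ∪ Rw) Rw e (glue K z y))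
      (fun y => V2 μ k x S (K ∪ Rw) Rw e f (glue K z y)) := fun e f =>
    pd_fz hKR (dep_v1 hG k x e) (fun hf => pd_v1 hG k x hR e hf)
      (fun hf y => V2_off hG k x e hf y) z
  -- the moments
  have bq2 := bm_q2 hG k x Rw (K ∪ Rw)
  have bq4 := bm_q4 hG k x Rw (K ∪ Rw)
  have dq2 := dep_q2 hG k x Rw (K ∪ Rw)
  have dq4 := dep_q4 hG k x Rw (K ∪ Rw)
  have eq2 : EG (q2 μ k x S (K ∪ Rw) Rw) := by
    obtain ⟨C, hC⟩ := bq2.bd
    exact EG.of_bdd bq2.meas hC
  have eq4 : EG (q4 μ k x S (K ∪ Rw) Rw) := by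
    obtain ⟨C, hC⟩ := bq4.bd
    exact EG.of_bdd bq4.meas hC
  have esq : EG fun y => √(q2 μ k x S (K ∪ Rw) Rw y) := by
    obtain ⟨C, hC⟩ := bq2.bd
    refine EG.of_bdd bq2.meas.sqrt (C := √C) fun y => ?_
    rw [abs_of_nonneg (Real.sqrt_nonneg _)]
    exact Real.sqrt_le_sqrt ((le_abs_self _).trans (hC y))
  have er3 : EG (r3f μ k x S (K ∪ Rw) Rw δ) := by
    have h1 := ((eq2.const_mul δ).add (eq4.const_mul (1 / δ))).const_mul (1 / 2)
    have e1 : (fun y => 1 / 2 * (δ * q2 μ k x S (K ∪ Rw) Rw y +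
        1 / δ * q4 μ k x S (K ∪ Rw) Rw y)) = r3f μ k x S (K ∪ Rw) Rw δ := by
      funext y
      unfold r3f
      ring
    rwa [e1] at h1
  have facts := fun y => r3_facts hG k (x := x) Rw (K ∪ Rw) hδ y
  set u' : ι → ℝ := fun e => if e ∈ Rw then u e else 0 with hu'
  have key := c3_up (N := fun y => N (glue K z y)) hT hVe hO hV2
    (fun e f => eg_glue (eg_V2 hG k x e f) K z)
    (r1 := fun y => √(q2 μ k x S (K ∪ Rw) Rw (glue K z y)))
    (r2 := fun y => q2 μ k x S (K ∪ Rw) Rw (glue K z y))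
    (r3 := fun y => r3f μ k x S (K ∪ Rw) Rw δ (glue K z y))
    (eg_glue esq K z) (eg_glue eq2 K z) (eg_glue er3 K z)
    (fun y => Real.sqrt_nonneg _) (fun y => (facts _).1) (fun y => (facts _).2.1)
    (fun y => (facts _).2.2.1) (fun y => (facts _).2.2.2.1)
    (c1 := 10 * C0 ^ 2) (c2 := 18) (c3 := 415344 * C0 ^ 2) (by positivity) (by norm_num)
    (fun y => (sum_N1 hG k Rw (K ∪ Rw) hx0 hx1 hh.meas hhC _).trans
      (mul_le_mul_of_nonneg_left (facts _).2.2.2.2.1 (by positivity)))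
    (fun y => (sum_V2 hG k Rw (K ∪ Rw) hx0 hx1 _).trans
      (mul_le_mul_of_nonneg_left (le_of_eq (ro2_eq hG k x Rw (K ∪ Rw) _)) (by norm_num)))
    (fun y => sum_N3 hG k Rw (K ∪ Rw) hδ hx0 hx1 hh.meas hhC _) u'
  -- translation
  simp only [hexp] at key
  have hlin : ∀ y, ∑ a, u' a * y a = lc Rw u (glue K z y) := by
    intro y
    rw [H161.lc_glue hKR]
    unfold lc
    rw [hu', ← Finset.sum_subset (Finset.subset_univ Rw)]
    · exact Finset.sum_congr rfl fun e he => by simp only [if_pos he]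
    · intro e _ he
      simp only [if_neg he, zero_mul]
  simp only [hlin] at key
  have elc := H161.eg_lc Rw u
  have dlc : H646.Dep (K ∪ Rw) (lc Rw u) := H161.dep_lc hR u
  have k1 := int_wn_glue' hG k x hK (Ψ := fun y => (N y - lc Rw u y) ^ 2)
    (fun y y' => by simp only [dN y y', dlc y y']) ((egN.sub elc).pow 2) z
  have k2 := int_wn_glue' hG k x hK (Ψ := fun _ => (1 : ℝ)) (fun _ _ => rfl) (EG.const 1) z
  rw [H646.cx_one hw] at k2
  simp only [mul_one] at k2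
  have dr3 : H646.Dep (K ∪ Rw) (r3f μ k x S (K ∪ Rw) Rw δ) := fun y y' => by
    unfold r3f
    rw [dq2 y y', dq4 y y']
  have k3 := int_wn_glue' hG k x hK dr3 er3 z
  have hp := hw.wn_pos K z
  -- the response
  have k4 : ∀ e, tm (fun y => Real.log (wn (gs ι) (K ∪ Rw) (Zxm μ k S x) (glue K z y)))
      (fun y => y e * N (glue K z y)) - u' e =
      if e ∈ Rw then cx (gs ι) K (Zxm μ k S x) (fun y => y e * N y) z - u e else 0 := by
    intro e
    by_cases he : e ∈ Rw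
    · rw [if_pos he]
      have h1 : u' e = u e := by rw [hu']; simp only [if_pos he]
      rw [h1]
      congr 1
      unfold tm
      simp only [hexp]
      rw [k2, div_eq_iff hp.ne', mul_comm (cx _ _ _ _ _)]
      have h2 := int_wn_glue' hG k x hK (Ψ := fun y => y e * N y)
        (fun y y' => by
          show glue (K ∪ Rw) y y' e * N (glue (K ∪ Rw) y y') = y e * N y
          rw [dN y y', H646.glue_mem (hR he)]) ((EG.coord e).mul egN) z
      rw [← h2]
      refine integral_congr_ae (Filter.Eventually.of_forall fun y => ?_)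
      show _ * (y e * N (glue K z y)) = _ * (glue K z y e * N (glue K z y))
      rw [H646.glue_not_mem (Finset.disjoint_right.1 hKR he)]
    · rw [if_neg he]
      have h1 : u' e = 0 := by rw [hu']; simp only [if_neg he]
      rw [h1, sub_zero, tm_coord hT hO.eg0 hO.pd0 hO.eg1 e]
      simp only [N1_off hG k x he, v1_off hG k x he, mul_zero, add_zero]
      exact tm_const hT 0
  have k5 : ∑ e, (tm (fun y => Real.log (wn (gs ι) (K ∪ Rw) (Zxm μ k S x) (glue K z y)))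
      (fun y => y e * N (glue K z y)) - u' e) ^ 2 =
      ∑ e ∈ Rw, (cx (gs ι) K (Zxm μ k S x) (fun y => y e * N y) z - u e) ^ 2 := by
    rw [← Finset.sum_subset (Finset.subset_univ Rw)]
    · exact Finset.sum_congr rfl fun e he => by rw [k4 e, if_pos he]
    · intro e _ he
      rw [k4 e, if_neg he]
      norm_num
  rw [k5, k1, k2, k3] at key
  have k6 : cx (gs ι) K (Zxm μ k S x) (r3f μ k x S (K ∪ Rw) Rw δ) z =
      (δ * cx (gs ι) K (Zxm μ k S x) (q2 μ k x S (K ∪ Rw) Rw) z +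
        cx (gs ι) K (Zxm μ k S x) (q4 μ k x S (K ∪ Rw) Rw) z / δ) / 2 := by
    have e1 : r3f μ k x S (K ∪ Rw) Rw δ = fun y => (δ / 2) * q2 μ k x S (K ∪ Rw) Rw y +
        (1 / (2 * δ)) * q4 μ k x S (K ∪ Rw) Rw y := by
      funext y
      unfold r3f
      field_simp
    rw [e1, H161.cx_num, H161.cx_num, H161.cx_num]
    have i2 : Integrable (fun y => (δ / 2) * (q2 μ k x S (K ∪ Rw) Rw (glue K z y) *
        Zxm μ k S x (glue K z y))) (gI ι) :=
      (((eg_glue eq2 K z).mul (eg_glue (hG.eg_Zx k x) K z)).integrable).const_mul _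
    have i4 : Integrable (fun y => (1 / (2 * δ)) * (q4 μ k x S (K ∪ Rw) Rw (glue K z y) *
        Zxm μ k S x (glue K z y))) (gI ι) :=
      (((eg_glue eq4 K z).mul (eg_glue (hG.eg_Zx k x) K z)).integrable).const_mul _
    have e2 : (fun y => (δ / 2 * q2 μ k x S (K ∪ Rw) Rw (glue K z y) +
        1 / (2 * δ) * q4 μ k x S (K ∪ Rw) Rw (glue K z y)) * Zxm μ k S x (glue K z y)) =
        fun y => (δ / 2) * (q2 μ k x S (K ∪ Rw) Rw (glue K z y) * Zxm μ k S x (glue K z y)) +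
          (1 / (2 * δ)) * (q4 μ k x S (K ∪ Rw) Rw (glue K z y) *
            Zxm μ k S x (glue K z y)) := by
      funext y
      ring
    rw [e2, integral_add i2 i4, integral_const_mul, integral_const_mul]
    have hp' := hp.ne'
    field_simp
  rw [k6] at key
  set A := ∑ e ∈ Rw, (cx (gs ι) K (Zxm μ k S x) (fun y => y e * N y) z - u e) ^ 2 with hA
  set B := δ * cx (gs ι) K (Zxm μ k S x) (q2 μ k x S (K ∪ Rw) Rw) z +
        cx (gs ι) K (Zxm μ k S x) (q4 μ k x S (K ∪ Rw) Rw) z / δ with hB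
  set W := wn (gs ι) K (Zxm μ k S x) z with hW
  have hB0 : 0 ≤ B := by
    have h2 : 0 ≤ cx (gs ι) K (Zxm μ k S x) (r3f μ k x S (K ∪ Rw) Rw δ) z := by
      rw [H161.cx_num]
      refine div_nonneg (integral_nonneg fun y => ?_) hp.le
      exact mul_nonneg (facts _).2.1 (hw.pos _).le
    rw [k6] at h2
    linarith
  refine le_of_mul_le_mul_left ?_ hp
  refine key.trans ?_
  have hC2 := sq_nonneg C0
  have h7 : 0 ≤ W * (C0 ^ 2 * B) := mul_nonneg hp.le (mul_nonneg hC2 hB0)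
  have e8 : 6 * (A * W) + (54 * (10 * C0 ^ 2 * 18) + 27 * (415344 * C0 ^ 2)) * (W * (B / 2)) =
      W * (6 * A) + 5612004 * (W * (C0 ^ 2 * B)) := by ring
  rw [e8]
  nlinarith

end Vale.Agent.P146.H980
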