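import Vale.Agent.P146.H980.Arr

/-!
The second and the fourth moment of the overlap of the row as sums of squares of conditional means,
and the first and third moment in terms of them (P146, block 07b-C3UP).
-/

open MeasureTheory ProbabilityTheory

namespace Vale.Agent.P146.H980

open Vale.Agent.P157.Lv Vale.Agent.P146.H425 Vale.Agent.P146.H196
open Vale.Agent.P146.H646 (glue wn cx Wt BM)
open Vale.Agent.P146.H487 (gs)

set_option linter.unusedSectionVars false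

/-- Jensen -/
lemma sq_int_le {Y : Type*} [MeasurableSpace Y] {ν : Measure Y} [IsProbabilityMeasure ν]
    {f : Y → ℝ} (hf : Bq f) : (∫ y, f y ∂ν) ^ 2 ≤ ∫ y, f y ^ 2 ∂ν := by
  set m := ∫ y, f y ∂ν with hm
  have h1 : 0 ≤ ∫ y, (f y - m) ^ 2 ∂ν := integral_nonneg fun y => sq_nonneg _
  have i1 := (hf.pow 2).integrable (ν := ν)
  have i2 := hf.integrable (ν := ν)
  have e : (fun y => (f y - m) ^ 2) = fun y => (f y ^ 2 - (2 * m) * f y) + m ^ 2 := by
    funext y; ring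
  have i3 : Integrable (fun y => f y ^ 2 - (2 * m) * f y) ν := i1.sub (i2.const_mul _)
  rw [e, integral_add i3 (integrable_const _), integral_sub i1 (i2.const_mul _),
    integral_const_mul, ← hm, integral_const, probReal_univ, one_smul] at h1
  nlinarith

variable {ι : Type} [Fintype ι] [DecidableEq ι] {Ω : Type} [MeasurableSpace Ω]

/-- the second moment -/
noncomputable def q2 (μ : Measure Ω) (k x : ℝ) (S : ι → Ω → ℝ) (K Rw : Finset ι)
    (z : ι → ℝ) : ℝ :=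
  ∑ e, ∑ f, cx (gs ι) K (Zxm μ k S x) (avm μ k S fun s => Sr Rw k S e s * Sr Rw k S f s) z ^ 2

/-- the fourth moment -/
noncomputable def q4 (μ : Measure Ω) (k x : ℝ) (S : ι → Ω → ℝ) (K Rw : Finset ι)
    (z : ι → ℝ) : ℝ :=
  ∑ e, ∑ f, ∑ g, ∑ h, cx (gs ι) K (Zxm μ k S x)
    (avm μ k S fun s => Sr Rw k S e s * Sr Rw k S f s * Sr Rw k S g s * Sr Rw k S h s) z ^ 2

variable {μ : Measure Ω} {S : ι → Ω → ℝ} {M0 : ℝ}

section
variable (hG : GM μ S M0) (k x : ℝ) (Rw K : Finset ι)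
include hG

lemma bm_row (e : ι) : Bm (Sr Rw k S e) := (GM.row hG Rw k).bS e

lemma bm_q2 : BM (q2 μ k x S K Rw) := by
  refine BM.sum _ fun e _ => BM.sum _ fun f _ => ?_
  exact H487.BM.sq' ((hG.wt k x).bm_cx K (hG.bm_avm k ((bm_row hG k Rw e).mul (bm_row hG k Rw f))))

lemma bm_q4 : BM (q4 μ k x S K Rw) := by
  refine BM.sum _ fun e _ => BM.sum _ fun f _ => BM.sum _ fun g _ => BM.sum _ fun h _ => ?_
  exact H487.BM.sq' ((hG.wt k x).bm_cx K (hG.bm_avm k ((((bm_row hG k Rw e).mul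
    (bm_row hG k Rw f)).mul (bm_row hG k Rw g)).mul (bm_row hG k Rw h))))

lemma dep_q2 : H646.Dep K (q2 μ k x S K Rw) := fun z z' => by
  unfold q2
  refine Finset.sum_congr rfl fun e _ => Finset.sum_congr rfl fun f _ => ?_
  rw [H646.dep_cx K z z']

lemma dep_q4 : H646.Dep K (q4 μ k x S K Rw) := fun z z' => by
  unfold q4
  refine Finset.sum_congr rfl fun e _ => Finset.sum_congr rfl fun f _ =>
    Finset.sum_congr rfl fun g _ => Finset.sum_congr rfl fun h _ => ?_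
  rw [H646.dep_cx K z z']

lemma ro2_eq (z : ι → ℝ) : ro μ k x S K Rw 2 z = q2 μ k x S K Rw z := by
  have i1 := r1l_prob hG k x K z
  have h1 := form_eq (ν := r1l μ k x S K z) (j := 2) (Bq.const 1)
    (t := fun _ e => Sr Rw k S e) (fun _ e => bq_row hG k Rw e)
  rw [sum_succ] at h1
  simp only [sum_succ, sum_zero, Fin.prod_univ_two, Fin.cons_zero, Fin.cons_one, one_mul] at h1
  unfold ro rk q2
  have e1 : ∀ p : Ω × Ω, |Gk (Sr Rw k S) p| ^ 2 =
      (∑ e, Sr Rw k S e p.1 * Sr Rw k S e p.2) * (∑ e, Sr Rw k S e p.1 * Sr Rw k S e p.2) :=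
    fun p => by rw [sq_abs]; unfold Gk; ring
  simp only [e1]
  rw [← h1]
  refine Finset.sum_congr rfl fun e _ => Finset.sum_congr rfl fun f _ => ?_
  rw [int_r1l hG k x K z ((bm_row hG k Rw e).mul (bm_row hG k Rw f))]

lemma ro4_eq (z : ι → ℝ) : ro μ k x S K Rw 4 z = q4 μ k x S K Rw z := by
  have i1 := r1l_prob hG k x K z
  have h1 := form_eq (ν := r1l μ k x S K z) (j := 4) (Bq.const 1)
    (t := fun _ e => Sr Rw k S e) (fun _ e => bq_row hG k Rw e)
  rw [sum_succ] at h1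
  simp only [sum_succ, sum_zero, Fin.prod_univ_four, one_mul] at h1
  unfold ro rk q4
  have e1 : ∀ p : Ω × Ω, |Gk (Sr Rw k S) p| ^ 4 =
      (∑ e, Sr Rw k S e p.1 * Sr Rw k S e p.2) * (∑ e, Sr Rw k S e p.1 * Sr Rw k S e p.2) *
      (∑ e, Sr Rw k S e p.1 * Sr Rw k S e p.2) * (∑ e, Sr Rw k S e p.1 * Sr Rw k S e p.2) :=
    fun p => by
      have : |Gk (Sr Rw k S) p| ^ 4 = (|Gk (Sr Rw k S) p| ^ 2) ^ 2 := by ring
      rw [this, sq_abs]; unfold Gk; ring
  simp only [e1]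
  rw [← h1]
  refine Finset.sum_congr rfl fun e _ => Finset.sum_congr rfl fun f _ =>
    Finset.sum_congr rfl fun g _ => Finset.sum_congr rfl fun h _ => ?_
  rw [← int_r1l hG k x K z ((((bm_row hG k Rw e).mul (bm_row hG k Rw f)).mul
    (bm_row hG k Rw g)).mul (bm_row hG k Rw h))]
  rfl

lemma bq_G (j : ℕ) : Bq fun p : Ω × Ω => |Gk (Sr Rw k S) p| ^ j :=
  (bq_Gk (bq_row hG k Rw)).abs.pow j

lemma ro_nonneg (j : ℕ) (z : ι → ℝ) : 0 ≤ ro μ k x S K Rw j z :=
  integral_nonneg fun p => pow_nonneg (abs_nonneg _) j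

lemma ro1_sq (z : ι → ℝ) : ro μ k x S K Rw 1 z ^ 2 ≤ ro μ k x S K Rw 2 z := by
  have i1 := r1l_prob hG k x K z
  have h1 := sq_int_le (ν := (r1l μ k x S K z).prod (r1l μ k x S K z)) (bq_G hG k Rw 1)
  unfold ro rk
  refine h1.trans (le_of_eq ?_)
  simp only [← pow_mul, one_mul]

lemma ro2_sq (z : ι → ℝ) : ro μ k x S K Rw 2 z ^ 2 ≤ ro μ k x S K Rw 4 z := by
  have i1 := r1l_prob hG k x K z
  have h1 := sq_int_le (ν := (r1l μ k x S K z).prod (r1l μ k x S K z)) (bq_G hG k Rw 2)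
  unfold ro rk
  refine h1.trans (le_of_eq ?_)
  simp only [← pow_mul]

lemma ro3_le {δ : ℝ} (hδ : 0 < δ) (z : ι → ℝ) : ro μ k x S K Rw 3 z ≤
    (δ * ro μ k x S K Rw 2 z + ro μ k x S K Rw 4 z / δ) / 2 := by
  have i1 := r1l_prob hG k x K z
  have j2 := (bq_G hG k Rw 2).integrable (ν := (r1l μ k x S K z).prod (r1l μ k x S K z))
  have j3 := (bq_G hG k Rw 3).integrable (ν := (r1l μ k x S K z).prod (r1l μ k x S K z))
  have j4 := (bq_G hG k Rw 4).integrable (ν := (r1l μ k x S K z).prod (r1l μ k x S K z))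
  unfold ro rk
  rw [← integral_const_mul, ← integral_div, ← integral_add (j2.const_mul δ) (j4.div_const δ),
    ← integral_div]
  refine integral_mono j3 (((j2.const_mul δ).add (j4.div_const δ)).div_const 2) fun p => ?_
  simp only
  set t := |Gk (Sr Rw k S) p| with ht
  have ht0 : 0 ≤ t := abs_nonneg _
  rw [le_div_iff₀ two_pos, ← sub_nonneg]
  have e1 : δ * t ^ 2 + t ^ 4 / δ - t ^ 3 * 2 = t ^ 2 * (δ - t) ^ 2 / δ := by
    field_simp
    ring
  rw [e1]
  positivity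

end

end Vale.Agent.P146.H980
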