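import Vale.Agent.P146.H980.Poin

/-!
The last square of the row identity, for a fixed frozen configuration: under the Gaussian measure
tilted by `exp V` (`V` even, small gradient), an odd function `N` is close to its linear part up to
the mean of the cube of the overlap.
-/

open MeasureTheory ProbabilityTheory

namespace Vale.Agent.P146.H980

open Vale.Agent.P157.Lv Vale.Agent.P146.H425 Vale.Agent.P146.H946

set_option linter.unusedSectionVars false

variable {ι : Type} [Fintype ι] [DecidableEq ι]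
variable {V f g : (ι → ℝ) → ℝ} {V' f' : ι → (ι → ℝ) → ℝ} {L : ℝ}

/-! ### parity of derivatives -/

lemma neg_update (z : ι → ℝ) (e : ι) (t : ℝ) :
    Function.update (-z) e (-t) = -Function.update z e t := by
  funext j
  by_cases h : j = e
  · subst h; simp
  · simp [Function.update_of_ne h]

lemma pd_par {e : ι} {f fe : (ι → ℝ) → ℝ} {c : ℝ} (hd : PD e f fe)
    (h : ∀ z, f (-z) = c * f z) (z : ι → ℝ) : fe (-z) = -(c * fe z) := by
  have h1 := hd (-z) (-z e)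
  have h2 : HasDerivAt (fun t => f (Function.update (-z) e (-t)))
      (fe (Function.update (-z) e (-z e)) * -1) (z e) := by
    have h3 : HasDerivAt (fun t : ℝ => -t) (-1) (z e) := hasDerivAt_neg (z e)
    exact HasDerivAt.comp (z e) h1 h3
  have h4 : HasDerivAt (fun t => f (Function.update (-z) e (-t)))
      (c * fe (Function.update z e (z e))) (z e) := by
    have h5 := (hd z (z e)).const_mul c
    refine h5.congr_of_eventuallyEq (Filter.Eventually.of_forall fun t => ?_)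
    show f (Function.update (-z) e (-t)) = c * f (Function.update z e t)
    rw [neg_update, h]
  have h6 := h2.unique h4
  rw [neg_update, Function.update_eq_self] at h6
  linarith

lemma pd_odd {e : ι} {f fe : (ι → ℝ) → ℝ} (hd : PD e f fe) (h : ∀ z, f (-z) = -f z)
    (z : ι → ℝ) : fe (-z) = fe z := by
  have := pd_par (c := -1) hd (fun z => by rw [h]; ring) z
  linarith

lemma pd_even {e : ι} {f fe : (ι → ℝ) → ℝ} (hd : PD e f fe) (h : ∀ z, f (-z) = f z)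
    (z : ι → ℝ) : fe (-z) = -fe z := by
  have := pd_par (c := 1) hd (fun z => by rw [h]; ring) z
  linarith

/-! ### the mean -/

lemma tm_add (h : Tilt V V' L) (hf : EG f) (hg : EG g) :
    tm V (fun z => f z + g z) = tm V f + tm V g := by
  unfold tm
  rw [← add_div, ← integral_add (h.ex1.mul hf).integrable (h.ex1.mul hg).integrable]
  simp only [mul_add]

lemma tm_sum (h : Tilt V V' L) {K : Type*} (s : Finset K) {F : K → (ι → ℝ) → ℝ}
    (hF : ∀ k ∈ s, EG (F k)) : tm V (fun z => ∑ k ∈ s, F k z) = ∑ k ∈ s, tm V (F k) := by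
  unfold tm
  rw [← Finset.sum_div, ← integral_finsetSum _ fun k hk => (h.ex1.mul (hF k hk)).integrable]
  simp only [Finset.mul_sum]

lemma tm_const_mul (V f : (ι → ℝ) → ℝ) (c : ℝ) : tm V (fun z => c * f z) = c * tm V f := by
  unfold tm
  rw [← mul_div_assoc, ← integral_const_mul]
  congr 2
  funext z
  ring

lemma tm_mono (h : Tilt V V' L) (hf : EG f) (hg : EG g) (hle : ∀ z, f z ≤ g z) :
    tm V f ≤ tm V g := by
  unfold tm
  refine div_le_div_of_nonneg_right ?_ h.pos.le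
  exact integral_mono (h.ex1.mul hf).integrable (h.ex1.mul hg).integrable
    fun z => mul_le_mul_of_nonneg_left (hle z) (Real.exp_pos _).le

lemma tm_const (h : Tilt V V' L) (c : ℝ) : tm V (fun _ => c) = c := by
  unfold tm
  rw [integral_mul_const, mul_comm, mul_div_assoc, div_self h.pos.ne', mul_one]

lemma tm_nonneg (V : (ι → ℝ) → ℝ) (hle : ∀ z, 0 ≤ f z) : 0 ≤ tm V f :=
  div_nonneg (integral_nonneg fun z => mul_nonneg (Real.exp_pos _).le (hle z))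
    (integral_nonneg fun z => (Real.exp_pos _).le)

/-- Cauchy-Schwarz -/
lemma tm_cs (h : Tilt V V' L) (hf : EG f) (hg : EG g) :
    tm V (fun z => f z * g z) ^ 2 ≤ tm V (fun z => f z ^ 2) * tm V (fun z => g z ^ 2) := by
  set a := tm V (fun z => f z ^ 2) with ha
  set b := tm V (fun z => f z * g z) with hb
  set c := tm V (fun z => g z ^ 2) with hc
  have ha0 : 0 ≤ a := tm_nonneg V fun z => sq_nonneg _
  have hc0 : 0 ≤ c := tm_nonneg V fun z => sq_nonneg _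
  have key : ∀ t : ℝ, 0 ≤ a * (t * t) + 2 * b * t + c := by
    intro t
    have h1 : 0 ≤ tm V (fun z => (t * f z + g z) ^ 2) := tm_nonneg V fun z => sq_nonneg _
    have e : (fun z => (t * f z + g z) ^ 2) =
        fun z => (t * t * f z ^ 2 + 2 * t * (f z * g z)) + g z ^ 2 := by
      funext z; ring
    rw [e, tm_add h (((hf.pow 2).const_mul _).add ((hf.mul hg).const_mul _)) (hg.pow 2),
      tm_add h ((hf.pow 2).const_mul _) ((hf.mul hg).const_mul _), tm_const_mul,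
      tm_const_mul] at h1
    rw [← ha, ← hb, ← hc] at h1
    linarith
  have hd := discrim_le_zero (a := a) (b := 2 * b) (c := c) key
  unfold discrim at hd
  nlinarith

/-! ### Hölder in the form needed below -/

lemma young1 {r1 r3 l : ℝ} (h1 : 0 ≤ r1) (h3 : r1 ^ 3 ≤ r3) (hl : 0 < l) :
    3 * l ^ 2 * r1 ≤ r3 + 2 * l ^ 3 := by
  nlinarith [mul_nonneg (sq_nonneg (r1 - l)) (by linarith : (0 : ℝ) ≤ r1 + 2 * l)]

lemma young2 {r2 r3 l : ℝ} (h2 : 0 ≤ r2) (h3 : 0 ≤ r3) (h : r2 ^ 3 ≤ r3 ^ 2) (hl : 0 < l) :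
    3 * l * r2 ≤ 2 * r3 + l ^ 3 := by
  set p := Real.sqrt r2 with hp
  have hp0 : 0 ≤ p := Real.sqrt_nonneg _
  have hp2 : p ^ 2 = r2 := Real.sq_sqrt h2
  have h4 : p ^ 3 ≤ r3 := by
    have : (p ^ 3) ^ 2 ≤ r3 ^ 2 := by
      calc (p ^ 3) ^ 2 = (p ^ 2) ^ 3 := by ring
        _ = r2 ^ 3 := by rw [hp2]
        _ ≤ r3 ^ 2 := h
    exact (sq_le_sq₀ (by positivity) h3).1 this
  rw [← hp2]
  nlinarith [mul_nonneg (sq_nonneg (p - l)) (by linarith : (0 : ℝ) ≤ 2 * p + l)]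

lemma tm_holder (h : Tilt V V' L) {r1 r2 r3 : (ι → ℝ) → ℝ} (e1 : EG r1) (e2 : EG r2)
    (e3 : EG r3) (h1 : ∀ z, 0 ≤ r1 z) (h2 : ∀ z, 0 ≤ r2 z) (h3 : ∀ z, 0 ≤ r3 z)
    (h13 : ∀ z, r1 z ^ 3 ≤ r3 z) (h23 : ∀ z, r2 z ^ 3 ≤ r3 z ^ 2) :
    tm V r1 * tm V r2 ≤ tm V r3 := by
  set c := tm V r3 with hc
  have hc0 : 0 ≤ c := tm_nonneg V h3
  have ha0 : 0 ≤ tm V r1 := tm_nonneg V h1
  have hb0 : 0 ≤ tm V r2 := tm_nonneg V h2
  refine le_of_forall_pos_le_add fun d hd => ?_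
  have hcd : 0 < c + d := by linarith
  set l := (c + d) ^ (1 / 3 : ℝ) with hl
  have hl0 : 0 < l := Real.rpow_pos_of_pos hcd _
  have hl3 : l ^ 3 = c + d := by
    rw [hl, ← Real.rpow_natCast, ← Real.rpow_mul hcd.le]
    norm_num
  have k1 : 3 * l ^ 2 * tm V r1 ≤ c + 2 * l ^ 3 := by
    have := tm_mono h (e1.const_mul (3 * l ^ 2)) (e3.add (EG.const (2 * l ^ 3)))
      fun z => young1 (h1 z) (h13 z) hl0
    rwa [tm_const_mul, tm_add h e3 (EG.const _), tm_const h] at this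
  have k2 : 3 * l * tm V r2 ≤ 2 * c + l ^ 3 := by
    have := tm_mono h (e2.const_mul (3 * l)) ((e3.const_mul 2).add (EG.const (l ^ 3)))
      fun z => young2 (h2 z) (h3 z) (h23 z) hl0
    rwa [tm_const_mul, tm_add h (e3.const_mul 2) (EG.const _), tm_const_mul, tm_const h] at this
  have m1 : tm V r1 ≤ l := by
    have : 3 * l ^ 2 * tm V r1 ≤ 3 * l ^ 2 * l := by nlinarith
    exact le_of_mul_le_mul_left this (by positivity)
  have m2 : tm V r2 ≤ l ^ 2 := by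
    have : 3 * l * tm V r2 ≤ 3 * l * l ^ 2 := by nlinarith
    exact le_of_mul_le_mul_left this (by positivity)
  calc tm V r1 * tm V r2 ≤ l * l ^ 2 := mul_le_mul m1 m2 hb0 hl0.le
    _ = c + d := by rw [← hl3]; ring

/-! ### the main inequality -/

/-- An odd function with three derivatives. -/
structure Odd3 (N : (ι → ℝ) → ℝ) (N1 : ι → (ι → ℝ) → ℝ) (N2 : ι → ι → (ι → ℝ) → ℝ)
    (N3 : ι → ι → ι → (ι → ℝ) → ℝ) : Prop where
  odd : ∀ z, N (-z) = -N z
  pd0 : ∀ a, PD a N (N1 a)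
  pd1 : ∀ a b, PD b (N1 a) (N2 a b)
  pd2 : ∀ a b c, PD c (N2 a b) (N3 a b c)
  eg0 : EG N
  eg1 : ∀ a, EG (N1 a)
  eg2 : ∀ a b, EG (N2 a b)
  eg3 : ∀ a b c, EG (N3 a b c)

variable {N : (ι → ℝ) → ℝ} {N1 : ι → (ι → ℝ) → ℝ} {N2 : ι → ι → (ι → ℝ) → ℝ}
  {N3 : ι → ι → ι → (ι → ℝ) → ℝ}

lemma Odd3.even1 (hN : Odd3 N N1 N2 N3) (a : ι) (z : ι → ℝ) : N1 a (-z) = N1 a z :=
  pd_odd (hN.pd0 a) hN.odd z

lemma Odd3.odd2 (hN : Odd3 N N1 N2 N3) (a b : ι) (z : ι → ℝ) : N2 a b (-z) = -N2 a b z :=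
  pd_even (hN.pd1 a b) (hN.even1 a) z

/-- second derivatives are controlled by the third ones -/
lemma sq2_le (h : Tilt V V' L) (hV : ∀ z, V (-z) = V z) (hN : Odd3 N N1 N2 N3) :
    ∫ z, Real.exp (V z) * ∑ a, ∑ b, N2 a b z ^ 2 ∂(gI ι) ≤
      (1 + 4 * L) * ∫ z, Real.exp (V z) * ∑ a, ∑ b, ∑ c, N3 a b c z ^ 2 ∂(gI ι) := by
  have h1 : ∀ a b, ∫ z, Real.exp (V z) * N2 a b z ^ 2 ∂(gI ι) ≤
      (1 + 4 * L) * ∫ z, Real.exp (V z) * ∑ c, N3 a b c z ^ 2 ∂(gI ι) := fun a b =>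
    tilt_odd h hV (hN.eg2 a b) (hN.pd2 a b) (hN.eg3 a b) (hN.odd2 a b)
  have e2 : ∀ a b, EG fun z => Real.exp (V z) * N2 a b z ^ 2 := fun a b =>
    h.ex1.mul ((hN.eg2 a b).pow 2)
  have e3 : ∀ a b, EG fun z => Real.exp (V z) * ∑ c, N3 a b c z ^ 2 := fun a b =>
    h.ex1.mul (EG.sum _ fun c _ => (hN.eg3 a b c).pow 2)
  calc ∫ z, Real.exp (V z) * ∑ a, ∑ b, N2 a b z ^ 2 ∂(gI ι)
      = ∑ a, ∑ b, ∫ z, Real.exp (V z) * N2 a b z ^ 2 ∂(gI ι) := by
        rw [← Finset.sum_congr rfl fun a _ => integral_finsetSum _ fun b _ => (e2 a b).integrable,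
          ← integral_finsetSum _ fun a _ => (EG.sum Finset.univ fun b _ => e2 a b).integrable]
        simp only [Finset.mul_sum]
    _ ≤ ∑ a, ∑ b, (1 + 4 * L) * ∫ z, Real.exp (V z) * ∑ c, N3 a b c z ^ 2 ∂(gI ι) :=
        Finset.sum_le_sum fun a _ => Finset.sum_le_sum fun b _ => h1 a b
    _ = (1 + 4 * L) * ∑ a, ∑ b, ∫ z, Real.exp (V z) * ∑ c, N3 a b c z ^ 2 ∂(gI ι) := by
        simp only [Finset.mul_sum]
    _ = (1 + 4 * L) * ∫ z, Real.exp (V z) * ∑ a, ∑ b, ∑ c, N3 a b c z ^ 2 ∂(gI ι) := by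
        congr 1
        rw [← Finset.sum_congr rfl fun a _ => integral_finsetSum _ fun b _ => (e3 a b).integrable,
          ← integral_finsetSum _ fun a _ => (EG.sum Finset.univ fun b _ => e3 a b).integrable]
        simp only [Finset.mul_sum]

/-- first derivatives, centered at a vector `u` -/
lemma sq1_eq (h : Tilt V V' L) (hN : Odd3 N N1 N2 N3) (u : ι → ℝ) :
    ∫ z, Real.exp (V z) * ∑ a, (N1 a z - u a) ^ 2 ∂(gI ι) ≤
      (1 + 4 * L) * ∫ z, Real.exp (V z) * ∑ a, ∑ b, N2 a b z ^ 2 ∂(gI ι) +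
        (∑ a, (tm V (N1 a) - u a) ^ 2) * ∫ z, Real.exp (V z) ∂(gI ι) := by
  have h1 : ∀ a, ∫ z, Real.exp (V z) * (N1 a z - u a) ^ 2 ∂(gI ι) ≤
      (1 + 4 * L) * ∫ z, Real.exp (V z) * ∑ b, N2 a b z ^ 2 ∂(gI ι) +
        (tm V (N1 a) - u a) ^ 2 * ∫ z, Real.exp (V z) ∂(gI ι) := fun a => by
    rw [tm_best h (hN.eg1 a) (u a)]
    have := tilt_var h (hN.eg1 a) (hN.pd1 a) (hN.eg2 a)
    linarith
  have e1 : ∀ a, EG fun z => Real.exp (V z) * (N1 a z - u a) ^ 2 := fun a =>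
    h.ex1.mul (((hN.eg1 a).sub (EG.const _)).pow 2)
  have e2 : ∀ a, EG fun z => Real.exp (V z) * ∑ b, N2 a b z ^ 2 := fun a =>
    h.ex1.mul (EG.sum _ fun b _ => (hN.eg2 a b).pow 2)
  calc ∫ z, Real.exp (V z) * ∑ a, (N1 a z - u a) ^ 2 ∂(gI ι)
      = ∑ a, ∫ z, Real.exp (V z) * (N1 a z - u a) ^ 2 ∂(gI ι) := by
        rw [← integral_finsetSum _ fun a _ => (e1 a).integrable]
        simp only [Finset.mul_sum]
    _ ≤ ∑ a, ((1 + 4 * L) * ∫ z, Real.exp (V z) * ∑ b, N2 a b z ^ 2 ∂(gI ι) +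
        (tm V (N1 a) - u a) ^ 2 * ∫ z, Real.exp (V z) ∂(gI ι)) :=
        Finset.sum_le_sum fun a _ => h1 a
    _ = _ := by
        rw [Finset.sum_add_distrib, ← Finset.mul_sum, ← Finset.sum_mul,
          ← integral_finsetSum _ fun a _ => (e2 a).integrable]
        simp only [Finset.mul_sum]

/-- the linear part is subtracted -/
lemma sq0_le (h : Tilt V V' L) (hV : ∀ z, V (-z) = V z) (hN : Odd3 N N1 N2 N3) (u : ι → ℝ) :
    ∫ z, Real.exp (V z) * (N z - ∑ a, u a * z a) ^ 2 ∂(gI ι) ≤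
      (1 + 4 * L) * ∫ z, Real.exp (V z) * ∑ a, (N1 a z - u a) ^ 2 ∂(gI ι) := by
  have eu : EG fun z : ι → ℝ => ∑ a, u a * z a :=
    EG.sum Finset.univ fun a _ => (EG.coord a).const_mul (u a)
  refine tilt_odd (f := fun z => N z - ∑ a, u a * z a) (f' := fun a z => N1 a z - u a) h hV
    (hN.eg0.sub eu) (fun e => ?_) (fun e => (hN.eg1 e).sub (EG.const _)) fun z => ?_
  · refine ((hN.pd0 e).sub (PD.sum Finset.univ fun a _ => (PD.coord a).const_mul (u a))).congr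
      fun y => ?_
    simp
  · rw [hN.odd]
    simp only [Pi.neg_apply, mul_neg, Finset.sum_neg_distrib]
    ring

/-- The derivative of the product with the weight has the same mean as multiplication by the
coordinate. -/
lemma tm_coord (h : Tilt V V' L) (hN0 : EG N) (hd : ∀ a, PD a N (N1 a)) (hN1 : ∀ a, EG (N1 a))
    (a : ι) : tm V (fun z => z a * N z) = tm V (fun z => N1 a z + N z * V' a z) := by
  have hE : PD a (fun z => Real.exp (V z)) (fun z => Real.exp (V z) * V' a z) := by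
    intro y t
    exact (h.pd a y t).exp
  have h1 := ((hd a).mul hE).stein (hN0.mul h.ex1)
    (((hN1 a).mul h.ex1).add (hN0.mul (h.ex1.mul (h.eg a))))
  unfold tm
  congr 1
  have e1 : ∀ z, Real.exp (V z) * (z a * N z) = z a * (N z * Real.exp (V z)) := fun z => by ring
  have e2 : ∀ z, Real.exp (V z) * (N1 a z + N z * V' a z) =
      N1 a z * Real.exp (V z) + N z * (Real.exp (V z) * V' a z) := fun z => by ring
  simp only [e1, e2]
  exact h1

/-- **The last square.** -/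
theorem c3_up (h : Tilt V V' L) (hV : ∀ z, V (-z) = V z) (hN : Odd3 N N1 N2 N3)
    {V2 : ι → ι → (ι → ℝ) → ℝ} (hV2 : ∀ a b, PD b (V' a) (V2 a b)) (eV2 : ∀ a b, EG (V2 a b))
    {r1 r2 r3 : (ι → ℝ) → ℝ} (e1 : EG r1) (e2 : EG r2) (e3 : EG r3)
    (p1 : ∀ z, 0 ≤ r1 z) (p2 : ∀ z, 0 ≤ r2 z) (p3 : ∀ z, 0 ≤ r3 z)
    (h13 : ∀ z, r1 z ^ 3 ≤ r3 z) (h23 : ∀ z, r2 z ^ 3 ≤ r3 z ^ 2)
    {c1 c2 c3 : ℝ} (k1 : 0 ≤ c1) (k2 : 0 ≤ c2)
    (b1 : ∀ z, ∑ a, N1 a z ^ 2 ≤ c1 * r1 z) (b2 : ∀ z, ∑ a, ∑ b, V2 a b z ^ 2 ≤ c2 * r2 z)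
    (b3 : ∀ z, ∑ a, ∑ b, ∑ c, N3 a b c z ^ 2 ≤ c3 * r3 z) (u : ι → ℝ) :
    ∫ z, Real.exp (V z) * (N z - ∑ a, u a * z a) ^ 2 ∂(gI ι) ≤
      6 * ((∑ a, (tm V (fun z => z a * N z) - u a) ^ 2) * ∫ z, Real.exp (V z) ∂(gI ι)) +
        (54 * (c1 * c2) + 27 * c3) * ∫ z, Real.exp (V z) * r3 z ∂(gI ι) := by
  have hL0 := h.L0
  have hL1 := h.L1
  set W := ∫ z, Real.exp (V z) ∂(gI ι) with hW
  have hW0 : 0 < W := h.pos
  have s0 := sq0_le h hV hN u
  have s1 := sq1_eq h hN u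
  have s2 := sq2_le h hV hN
  -- third derivatives
  have s3 : ∫ z, Real.exp (V z) * ∑ a, ∑ b, ∑ c, N3 a b c z ^ 2 ∂(gI ι) ≤
      c3 * ∫ z, Real.exp (V z) * r3 z ∂(gI ι) := by
    rw [← integral_const_mul]
    refine integral_mono (h.ex1.mul (EG.sum _ fun a _ => EG.sum _ fun b _ => EG.sum _
      fun c _ => (hN.eg3 a b c).pow 2)).integrable ((h.ex1.mul e3).const_mul _).integrable
      fun z => ?_
    have := mul_le_mul_of_nonneg_left (b3 z) (Real.exp_pos (V z)).le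
    calc _ ≤ Real.exp (V z) * (c3 * r3 z) := this
      _ = c3 * (Real.exp (V z) * r3 z) := by ring
  -- the mean of the gradient
  have s4 : ∑ a, (tm V (N1 a) - tm V (fun z => z a * N z)) ^ 2 ≤
      (1 + 4 * L) ^ 2 * (c1 * c2) * tm V r3 := by
    have t1 : ∀ a, tm V (N1 a) - tm V (fun z => z a * N z) = -tm V (fun z => N z * V' a z) := by
      intro a
      rw [tm_coord h hN.eg0 hN.pd0 hN.eg1 a, tm_add h (hN.eg1 a) (hN.eg0.mul (h.eg a))]
      ring
    have t2 : ∀ a, (tm V (N1 a) - tm V (fun z => z a * N z)) ^ 2 ≤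
        tm V (fun z => N z ^ 2) * tm V (fun z => V' a z ^ 2) := by
      intro a
      rw [t1 a, neg_sq]
      exact tm_cs h hN.eg0 (h.eg a)
    have t3 : tm V (fun z => N z ^ 2) ≤ (1 + 4 * L) * (c1 * tm V r1) := by
      have q1 := tilt_odd h hV hN.eg0 hN.pd0 hN.eg1 hN.odd
      have q2 : tm V (fun z => N z ^ 2) ≤ (1 + 4 * L) * tm V (fun z => ∑ a, N1 a z ^ 2) := by
        unfold tm
        rw [← mul_div_assoc]
        exact div_le_div_of_nonneg_right q1 hW0.le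
      have q3 : tm V (fun z => ∑ a, N1 a z ^ 2) ≤ c1 * tm V r1 := by
        rw [← tm_const_mul]
        exact tm_mono h (EG.sum _ fun a _ => (hN.eg1 a).pow 2) (e1.const_mul _) b1
      exact q2.trans (mul_le_mul_of_nonneg_left q3 (by linarith))
    have t4 : ∑ a, tm V (fun z => V' a z ^ 2) ≤ (1 + 4 * L) * (c2 * tm V r2) := by
      have q1 : ∀ a, tm V (fun z => V' a z ^ 2) ≤
          (1 + 4 * L) * tm V (fun z => ∑ b, V2 a b z ^ 2) := fun a => by
        have q1 := tilt_odd h hV (h.eg a) (hV2 a) (eV2 a) (pd_even (h.pd a) hV)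
        unfold tm
        rw [← mul_div_assoc]
        exact div_le_div_of_nonneg_right q1 hW0.le
      calc ∑ a, tm V (fun z => V' a z ^ 2)
          ≤ ∑ a, (1 + 4 * L) * tm V (fun z => ∑ b, V2 a b z ^ 2) :=
            Finset.sum_le_sum fun a _ => q1 a
        _ = (1 + 4 * L) * tm V (fun z => ∑ a, ∑ b, V2 a b z ^ 2) := by
            rw [← Finset.mul_sum, tm_sum h Finset.univ fun a _ =>
              EG.sum Finset.univ fun b _ => (eV2 a b).pow 2]
        _ ≤ (1 + 4 * L) * (c2 * tm V r2) := by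
            refine mul_le_mul_of_nonneg_left ?_ (by linarith)
            rw [← tm_const_mul]
            exact tm_mono h (EG.sum _ fun a _ => EG.sum _ fun b _ => (eV2 a b).pow 2)
              (e2.const_mul _) b2
    have t5 := tm_holder h e1 e2 e3 p1 p2 p3 h13 h23
    have t6 : 0 ≤ ∑ a, tm V (fun z => V' a z ^ 2) :=
      Finset.sum_nonneg fun a _ => tm_nonneg V fun z => sq_nonneg _
    have t7 : 0 ≤ tm V r1 := tm_nonneg V p1
    have t8 : 0 ≤ tm V r2 := tm_nonneg V p2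
    calc ∑ a, (tm V (N1 a) - tm V (fun z => z a * N z)) ^ 2
        ≤ ∑ a, tm V (fun z => N z ^ 2) * tm V (fun z => V' a z ^ 2) :=
          Finset.sum_le_sum fun a _ => t2 a
      _ = tm V (fun z => N z ^ 2) * ∑ a, tm V (fun z => V' a z ^ 2) := by rw [Finset.mul_sum]
      _ ≤ ((1 + 4 * L) * (c1 * tm V r1)) * ((1 + 4 * L) * (c2 * tm V r2)) :=
          mul_le_mul t3 t4 t6 (by positivity)
      _ = (1 + 4 * L) ^ 2 * (c1 * c2) * (tm V r1 * tm V r2) := by ring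
      _ ≤ (1 + 4 * L) ^ 2 * (c1 * c2) * tm V r3 :=
          mul_le_mul_of_nonneg_left t5 (by positivity)
  have s5 : ∑ a, (tm V (N1 a) - u a) ^ 2 ≤
      2 * ((1 + 4 * L) ^ 2 * (c1 * c2) * tm V r3) +
        2 * ∑ a, (tm V (fun z => z a * N z) - u a) ^ 2 := by
    calc ∑ a, (tm V (N1 a) - u a) ^ 2
        ≤ ∑ a, (2 * (tm V (N1 a) - tm V (fun z => z a * N z)) ^ 2 +
          2 * (tm V (fun z => z a * N z) - u a) ^ 2) := by
          refine Finset.sum_le_sum fun a _ => ?_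
          nlinarith [sq_nonneg ((tm V (N1 a) - tm V (fun z => z a * N z)) -
            (tm V (fun z => z a * N z) - u a))]
      _ ≤ _ := by
          rw [Finset.sum_add_distrib, ← Finset.mul_sum, ← Finset.mul_sum]
          linarith
  have hr : tm V r3 * W = ∫ z, Real.exp (V z) * r3 z ∂(gI ι) := h.tm_mul r3
  set R := ∫ z, Real.exp (V z) * r3 z ∂(gI ι) with hR
  set A := ∑ a, (tm V (fun z => z a * N z) - u a) ^ 2 with hA
  have hA0 : 0 ≤ A := Finset.sum_nonneg fun a _ => sq_nonneg _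
  have hR0 : 0 ≤ R := integral_nonneg fun z => mul_nonneg (Real.exp_pos _).le (p3 z)
  set T := ∫ z, Real.exp (V z) * ∑ a, ∑ b, ∑ c, N3 a b c z ^ 2 ∂(gI ι) with hT
  have hT0 : 0 ≤ T := integral_nonneg fun z => mul_nonneg (Real.exp_pos _).le
    (Finset.sum_nonneg fun a _ => Finset.sum_nonneg fun b _ => Finset.sum_nonneg fun c _ =>
      sq_nonneg _)
  have hC0 : 0 ≤ c1 * c2 := mul_nonneg k1 k2
  have l3 : 1 + 4 * L ≤ 3 := by linarith
  have l0 : 0 ≤ 1 + 4 * L := by linarith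
  have l9 : (1 + 4 * L) ^ 2 ≤ 9 := by nlinarith
  have l27 : (1 + 4 * L) ^ 3 ≤ 27 := by
    calc (1 + 4 * L) ^ 3 = (1 + 4 * L) ^ 2 * (1 + 4 * L) := by ring
      _ ≤ 9 * 3 := mul_le_mul l9 l3 l0 (by norm_num)
      _ = 27 := by norm_num
  have u1 : (∑ a, (tm V (N1 a) - u a) ^ 2) * W ≤
      2 * ((1 + 4 * L) ^ 2 * (c1 * c2)) * R + 2 * (A * W) := by
    have := mul_le_mul_of_nonneg_right s5 hW0.le
    calc _ ≤ (2 * ((1 + 4 * L) ^ 2 * (c1 * c2) * tm V r3) + 2 * A) * W := this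
      _ = 2 * ((1 + 4 * L) ^ 2 * (c1 * c2)) * (tm V r3 * W) + 2 * (A * W) := by ring
      _ = _ := by rw [hr]
  have u2 : ∫ z, Real.exp (V z) * (N z - ∑ a, u a * z a) ^ 2 ∂(gI ι) ≤
      (1 + 4 * L) ^ 3 * T + (1 + 4 * L) * (2 * ((1 + 4 * L) ^ 2 * (c1 * c2)) * R + 2 * (A * W)) := by
    refine s0.trans ?_
    refine (mul_le_mul_of_nonneg_left s1 l0).trans ?_
    have v1 := mul_le_mul_of_nonneg_left s2 (sq_nonneg (1 + 4 * L))
    have v2 := mul_le_mul_of_nonneg_left u1 l0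
    nlinarith
  have u3 : (1 + 4 * L) ^ 3 * T ≤ 27 * (c3 * R) := by
    calc (1 + 4 * L) ^ 3 * T ≤ 27 * T := mul_le_mul_of_nonneg_right l27 hT0
      _ ≤ 27 * (c3 * R) := mul_le_mul_of_nonneg_left s3 (by norm_num)
  have u4 : (1 + 4 * L) * (2 * ((1 + 4 * L) ^ 2 * (c1 * c2)) * R) ≤ 54 * (c1 * c2) * R := by
    calc (1 + 4 * L) * (2 * ((1 + 4 * L) ^ 2 * (c1 * c2)) * R)
        = (1 + 4 * L) ^ 3 * (2 * (c1 * c2) * R) := by ring
      _ ≤ 27 * (2 * (c1 * c2) * R) := mul_le_mul_of_nonneg_right l27 (by positivity)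
      _ = 54 * (c1 * c2) * R := by ring
  have u5 : (1 + 4 * L) * (2 * (A * W)) ≤ 6 * (A * W) := by
    have : 0 ≤ 2 * (A * W) := by positivity
    calc (1 + 4 * L) * (2 * (A * W)) ≤ 3 * (2 * (A * W)) := mul_le_mul_of_nonneg_right l3 this
      _ = 6 * (A * W) := by ring
  calc _ ≤ _ := u2
    _ = (1 + 4 * L) ^ 3 * T + (1 + 4 * L) * (2 * ((1 + 4 * L) ^ 2 * (c1 * c2)) * R) +
        (1 + 4 * L) * (2 * (A * W)) := by ring
    _ ≤ 27 * (c3 * R) + 54 * (c1 * c2) * R + 6 * (A * W) := by linarith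
    _ = _ := by ring

end Vale.Agent.P146.H980
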