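import Mathlib

/-!
Sums of squares of the third derivative of a quotient (P146, block 07b-C3UP): pure algebra.
-/

namespace Vale.Agent.P146.H980

variable {ι : Type*} [Fintype ι]

/-- the triple sum -/
def S3 (F : ι → ι → ι → ℝ) : ℝ := ∑ a, ∑ b, ∑ c, F a b c

lemma S3_mono {F G : ι → ι → ι → ℝ} (h : ∀ a b c, F a b c ≤ G a b c) : S3 F ≤ S3 G :=
  Finset.sum_le_sum fun a _ => Finset.sum_le_sum fun b _ => Finset.sum_le_sum fun c _ => h a b c

lemma S3_add (F G : ι → ι → ι → ℝ) : S3 (fun a b c => F a b c + G a b c) = S3 F + S3 G := by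
  unfold S3
  simp only [Finset.sum_add_distrib]

lemma S3_cmul (t : ℝ) (F : ι → ι → ι → ℝ) : S3 (fun a b c => t * F a b c) = t * S3 F := by
  unfold S3
  simp only [Finset.mul_sum]

lemma S3_ab (p : ι → ι → ℝ) (q : ι → ℝ) :
    S3 (fun a b c => p a b * q c) = (∑ a, ∑ b, p a b) * ∑ c, q c := by
  unfold S3
  simp only [Finset.sum_mul]
  refine Finset.sum_congr rfl fun a _ => Finset.sum_congr rfl fun b _ => ?_
  rw [Finset.mul_sum]

lemma S3_ac (p : ι → ι → ℝ) (q : ι → ℝ) :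
    S3 (fun a b c => p a c * q b) = (∑ a, ∑ b, p a b) * ∑ c, q c := by
  rw [← S3_ab]
  unfold S3
  refine Finset.sum_congr rfl fun a _ => ?_
  rw [Finset.sum_comm]

lemma S3_bc (p : ι → ι → ℝ) (q : ι → ℝ) :
    S3 (fun a b c => p b c * q a) = (∑ a, ∑ b, p a b) * ∑ c, q c := by
  unfold S3
  rw [mul_comm, Finset.sum_mul]
  refine Finset.sum_congr rfl fun a _ => ?_
  rw [Finset.mul_sum]
  refine Finset.sum_congr rfl fun b _ => ?_
  rw [Finset.mul_sum]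
  exact Finset.sum_congr rfl fun c _ => mul_comm _ _

lemma S3_111 (p q r : ι → ℝ) :
    S3 (fun a b c => p a * q b * r c) = (∑ a, p a) * (∑ b, q b) * ∑ c, r c := by
  rw [S3_ab (fun a b => p a * q b) r]
  congr 1
  rw [Finset.sum_mul_sum]

lemma cs7 (a b c d e f g : ℝ) : (a - b - c + 2 * d - e + 2 * f - 6 * g) ^ 2 ≤
    48 * (a ^ 2 + b ^ 2 + c ^ 2 + d ^ 2 + e ^ 2 + f ^ 2 + g ^ 2) := by
  have h : 48 * (a ^ 2 + b ^ 2 + c ^ 2 + d ^ 2 + e ^ 2 + f ^ 2 + g ^ 2) -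
      (a - b - c + 2 * d - e + 2 * f - 6 * g) ^ 2 =
      ((1) * b - (-1) * a) ^ 2 +
      ((1) * c - (-1) * a) ^ 2 +
      ((1) * d - (2) * a) ^ 2 +
      ((1) * e - (-1) * a) ^ 2 +
      ((1) * f - (2) * a) ^ 2 +
      ((1) * g - (-6) * a) ^ 2 +
      ((-1) * c - (-1) * b) ^ 2 +
      ((-1) * d - (2) * b) ^ 2 +
      ((-1) * e - (-1) * b) ^ 2 +
      ((-1) * f - (2) * b) ^ 2 +
      ((-1) * g - (-6) * b) ^ 2 +
      ((-1) * d - (2) * c) ^ 2 +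
      ((-1) * e - (-1) * c) ^ 2 +
      ((-1) * f - (2) * c) ^ 2 +
      ((-1) * g - (-6) * c) ^ 2 +
      ((2) * e - (-1) * d) ^ 2 +
      ((2) * f - (2) * d) ^ 2 +
      ((2) * g - (-6) * d) ^ 2 +
      ((-1) * f - (2) * e) ^ 2 +
      ((-1) * g - (-6) * e) ^ 2 +
      ((2) * g - (-6) * f) ^ 2 := by ring
  rw [← sub_nonneg, h]
  positivity

lemma cs3 (a b c : ℝ) : (a + b + c) ^ 2 ≤ 3 * (a ^ 2 + b ^ 2 + c ^ 2) := by
  nlinarith [sq_nonneg (a - b), sq_nonneg (a - c), sq_nonneg (b - c)]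

/-- the third derivative of the quotient -/
def N3a (n0 : ℝ) (n1 u1 : ι → ℝ) (n2 u2 : ι → ι → ℝ) (n3 u3 : ι → ι → ι → ℝ) (a b c : ι) : ℝ :=
  n3 a b c - (n2 a b * u1 c + n2 a c * u1 b + n2 b c * u1 a) -
    (n1 a * u2 b c + n1 b * u2 a c + n1 c * u2 a b) +
    2 * (n1 a * u1 b * u1 c + n1 b * u1 a * u1 c + n1 c * u1 a * u1 b) -
    n0 * u3 a b c +
    2 * (n0 * (u2 a b * u1 c + u2 a c * u1 b + u2 b c * u1 a)) -
    6 * (n0 * (u1 a * u1 b * u1 c))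

theorem N3_le {n0 : ℝ} {n1 u1 : ι → ℝ} {n2 u2 : ι → ι → ℝ} {n3 u3 : ι → ι → ι → ℝ}
    {C a1 a2 a3 w1 w2 w3 : ℝ} (h0 : n0 ^ 2 ≤ C) (hC : 0 ≤ C) (h1 : ∑ a, n1 a ^ 2 ≤ a1)
    (h2 : ∑ a, ∑ b, n2 a b ^ 2 ≤ a2) (h3 : ∑ a, ∑ b, ∑ c, n3 a b c ^ 2 ≤ a3)
    (g1 : ∑ a, u1 a ^ 2 ≤ w1) (g2 : ∑ a, ∑ b, u2 a b ^ 2 ≤ w2)
    (g3 : ∑ a, ∑ b, ∑ c, u3 a b c ^ 2 ≤ w3) :
    ∑ a, ∑ b, ∑ c, N3a n0 n1 u1 n2 u2 n3 u3 a b c ^ 2 ≤
      48 * (a3 + 9 * (a2 * w1) + 9 * (a1 * w2) + 9 * (a1 * w1 * w1) + C * w3 +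
        9 * (C * (w2 * w1)) + C * (w1 * w1 * w1)) := by
  have p1 : 0 ≤ ∑ a, n1 a ^ 2 := Finset.sum_nonneg fun _ _ => sq_nonneg _
  have p2 : 0 ≤ ∑ a, ∑ b, n2 a b ^ 2 :=
    Finset.sum_nonneg fun _ _ => Finset.sum_nonneg fun _ _ => sq_nonneg _
  have r1 : 0 ≤ ∑ a, u1 a ^ 2 := Finset.sum_nonneg fun _ _ => sq_nonneg _
  have r2 : 0 ≤ ∑ a, ∑ b, u2 a b ^ 2 :=
    Finset.sum_nonneg fun _ _ => Finset.sum_nonneg fun _ _ => sq_nonneg _
  have q1 : 0 ≤ a1 := p1.trans h1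
  have q2 : 0 ≤ a2 := p2.trans h2
  have s1 : 0 ≤ w1 := r1.trans g1
  have s2 : 0 ≤ w2 := r2.trans g2
  -- the groups
  have tB : S3 (fun a b c => (n2 a b * u1 c + n2 a c * u1 b + n2 b c * u1 a) ^ 2) ≤
      9 * (a2 * w1) := by
    calc _ ≤ S3 (fun a b c => 3 * ((n2 a b ^ 2 * u1 c ^ 2 + n2 a c ^ 2 * u1 b ^ 2) +
          n2 b c ^ 2 * u1 a ^ 2)) := S3_mono fun a b c => by
            have := cs3 (n2 a b * u1 c) (n2 a c * u1 b) (n2 b c * u1 a)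
            simp only [mul_pow] at this
            exact this
      _ = 9 * ((∑ a, ∑ b, n2 a b ^ 2) * ∑ c, u1 c ^ 2) := by
            rw [S3_cmul, S3_add, S3_add, S3_ab (fun a b => n2 a b ^ 2) fun c => u1 c ^ 2,
              S3_ac (fun a b => n2 a b ^ 2) fun c => u1 c ^ 2,
              S3_bc (fun a b => n2 a b ^ 2) fun c => u1 c ^ 2]
            ring
      _ ≤ _ := by
            have := mul_le_mul h2 g1 r1 q2
            linarith
  have tC : S3 (fun a b c => (n1 a * u2 b c + n1 b * u2 a c + n1 c * u2 a b) ^ 2) ≤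
      9 * (a1 * w2) := by
    calc _ ≤ S3 (fun a b c => 3 * ((u2 b c ^ 2 * n1 a ^ 2 + u2 a c ^ 2 * n1 b ^ 2) +
          u2 a b ^ 2 * n1 c ^ 2)) := S3_mono fun a b c => by
            have := cs3 (n1 a * u2 b c) (n1 b * u2 a c) (n1 c * u2 a b)
            simp only [mul_pow] at this
            linarith
      _ = 9 * ((∑ c, n1 c ^ 2) * ∑ a, ∑ b, u2 a b ^ 2) := by
            rw [S3_cmul, S3_add, S3_add, S3_ab (fun a b => u2 a b ^ 2) fun c => n1 c ^ 2,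
              S3_ac (fun a b => u2 a b ^ 2) fun c => n1 c ^ 2,
              S3_bc (fun a b => u2 a b ^ 2) fun c => n1 c ^ 2]
            ring
      _ ≤ _ := by
            have := mul_le_mul h1 g2 r2 q1
            linarith
  have tD : S3 (fun a b c =>
      (n1 a * u1 b * u1 c + n1 b * u1 a * u1 c + n1 c * u1 a * u1 b) ^ 2) ≤
      9 * (a1 * w1 * w1) := by
    calc _ ≤ S3 (fun a b c => 3 * ((n1 a ^ 2 * u1 b ^ 2 * u1 c ^ 2 +
          u1 a ^ 2 * n1 b ^ 2 * u1 c ^ 2) + u1 a ^ 2 * u1 b ^ 2 * n1 c ^ 2)) :=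
            S3_mono fun a b c => by
            have := cs3 (n1 a * u1 b * u1 c) (n1 b * u1 a * u1 c) (n1 c * u1 a * u1 b)
            simp only [mul_pow] at this
            linarith
      _ = 9 * ((∑ c, n1 c ^ 2) * (∑ a, u1 a ^ 2) * ∑ a, u1 a ^ 2) := by
            rw [S3_cmul, S3_add, S3_add, S3_111 (fun a => n1 a ^ 2) (fun b => u1 b ^ 2)
              fun c => u1 c ^ 2, S3_111 (fun a => u1 a ^ 2) (fun b => n1 b ^ 2)
              fun c => u1 c ^ 2, S3_111 (fun a => u1 a ^ 2) (fun b => u1 b ^ 2)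
              fun c => n1 c ^ 2]
            ring
      _ ≤ _ := by
            have h4 := mul_le_mul h1 g1 r1 q1
            have h5 := mul_le_mul h4 g1 r1 (mul_nonneg q1 s1)
            linarith
  have tE : S3 (fun a b c => (n0 * u3 a b c) ^ 2) ≤ C * w3 := by
    have e1 : (fun a b c => (n0 * u3 a b c) ^ 2) = fun a b c => n0 ^ 2 * u3 a b c ^ 2 := by
      funext a b c; ring
    rw [e1, S3_cmul]
    have p3 : 0 ≤ S3 (fun a b c => u3 a b c ^ 2) := Finset.sum_nonneg fun _ _ =>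
      Finset.sum_nonneg fun _ _ => Finset.sum_nonneg fun _ _ => sq_nonneg _
    exact mul_le_mul h0 g3 p3 hC
  have tF : S3 (fun a b c => (n0 * (u2 a b * u1 c + u2 a c * u1 b + u2 b c * u1 a)) ^ 2) ≤
      9 * (C * (w2 * w1)) := by
    calc _ ≤ S3 (fun a b c => (n0 ^ 2 * 3) * ((u2 a b ^ 2 * u1 c ^ 2 + u2 a c ^ 2 * u1 b ^ 2) +
          u2 b c ^ 2 * u1 a ^ 2)) := S3_mono fun a b c => by
            have := cs3 (u2 a b * u1 c) (u2 a c * u1 b) (u2 b c * u1 a)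
            simp only [mul_pow] at this
            have h6 := mul_le_mul_of_nonneg_left this (sq_nonneg n0)
            rw [mul_pow]
            linarith
      _ = 9 * (n0 ^ 2 * ((∑ a, ∑ b, u2 a b ^ 2) * ∑ c, u1 c ^ 2)) := by
            rw [S3_cmul, S3_add, S3_add, S3_ab (fun a b => u2 a b ^ 2) fun c => u1 c ^ 2,
              S3_ac (fun a b => u2 a b ^ 2) fun c => u1 c ^ 2,
              S3_bc (fun a b => u2 a b ^ 2) fun c => u1 c ^ 2]
            ring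
      _ ≤ _ := by
            have h4 := mul_le_mul g2 g1 r1 s2
            have h5 := mul_le_mul h0 h4 (mul_nonneg r2 r1) hC
            linarith
  have tG : S3 (fun a b c => (n0 * (u1 a * u1 b * u1 c)) ^ 2) ≤ C * (w1 * w1 * w1) := by
    have e1 : (fun a b c => (n0 * (u1 a * u1 b * u1 c)) ^ 2) =
        fun a b c => n0 ^ 2 * (u1 a ^ 2 * u1 b ^ 2 * u1 c ^ 2) := by
      funext a b c; ring
    rw [e1, S3_cmul, S3_111 (fun a => u1 a ^ 2) (fun b => u1 b ^ 2) fun c => u1 c ^ 2]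
    have h4 := mul_le_mul g1 g1 r1 s1
    have h5 := mul_le_mul h4 g1 r1 (mul_nonneg s1 s1)
    exact mul_le_mul h0 h5 (mul_nonneg (mul_nonneg r1 r1) r1) hC
  have hall : S3 (fun a b c => N3a n0 n1 u1 n2 u2 n3 u3 a b c ^ 2) ≤
      48 * (S3 (fun a b c => n3 a b c ^ 2) +
        S3 (fun a b c => (n2 a b * u1 c + n2 a c * u1 b + n2 b c * u1 a) ^ 2) +
        S3 (fun a b c => (n1 a * u2 b c + n1 b * u2 a c + n1 c * u2 a b) ^ 2) +
        S3 (fun a b c =>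
          (n1 a * u1 b * u1 c + n1 b * u1 a * u1 c + n1 c * u1 a * u1 b) ^ 2) +
        S3 (fun a b c => (n0 * u3 a b c) ^ 2) +
        S3 (fun a b c => (n0 * (u2 a b * u1 c + u2 a c * u1 b + u2 b c * u1 a)) ^ 2) +
        S3 (fun a b c => (n0 * (u1 a * u1 b * u1 c)) ^ 2)) := by
    rw [← S3_add, ← S3_add, ← S3_add, ← S3_add, ← S3_add, ← S3_add, ← S3_cmul]
    exact S3_mono fun a b c => cs7 _ _ _ _ _ _ _
  have h3' : S3 (fun a b c => n3 a b c ^ 2) ≤ a3 := h3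
  refine le_trans hall ?_
  linarith

end Vale.Agent.P146.H980
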