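import Vale.Agent.P146.H980.Brak

/-!
The brackets which appear in the first three derivatives, and the sums of their squares over the
row (P146, block 07b-C3UP).
-/

open MeasureTheory ProbabilityTheory

namespace Vale.Agent.P146.H980

open Vale.Agent.P157.Lv Vale.Agent.P146.H425 Vale.Agent.P146.H196
open Vale.Agent.P146.H646 (glue wn cx Wt BM)
open Vale.Agent.P146.H487 (gs)

set_option linter.unusedSectionVars false

variable {ι : Type} [Fintype ι] [DecidableEq ι] {Ω : Type} [MeasurableSpace Ω]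

/-- the energies of the row with the coupling constant, zero off the row -/
def Sr (Rw : Finset ι) (k : ℝ) (S : ι → Ω → ℝ) (e : ι) (s : Ω) : ℝ := if e ∈ Rw then k * S e s else 0

/-- the coefficients of the kernel of the derivative -/
def cf (x : ℝ) (R : Type) [Fintype R] : Option R → ℝ
  | some _ => 1
  | none => x - Fintype.card R

/-- extension by zero -/
def xt {R : Type} (a : R → ℝ) : Option R → ℝ
  | some b => a b
  | none => 0

/-- the coefficient norm -/
noncomputable def nm (x : ℝ) (R : Type) [Fintype R] : ℝ := Fintype.card R + |x - Fintype.card R|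

lemma sum_abs_cf (x : ℝ) (R : Type) [Fintype R] : ∑ b, |cf x R b| = nm x R := by
  rw [Fintype.sum_option]
  unfold cf nm
  simp
  ring

lemma sum_abs_xt {R : Type} [Fintype R] (a : R → ℝ) : ∑ b, |xt a b| = ∑ b, |a b| := by
  rw [Fintype.sum_option]
  unfold xt
  simp

lemma sum_xt {R : Type} [Fintype R] (a : R → ℝ) (F : Option R → ℝ) :
    ∑ b, xt a b * F b = ∑ b, a b * F (some b) := by
  rw [Fintype.sum_option]
  unfold xt
  simp

lemma dR_eq {R : Type} [Fintype R] (T : ι → Ω → ℝ) (x : ℝ) (e : ι) (h : (R → Ω) → ℝ)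
    (w : Option R → Ω) :
    dR T x e h w = h (fun a => w (some a)) * ∑ b, cf x R b * T e (w b) := by
  unfold dR
  rw [Fintype.sum_option]
  unfold cf
  simp only [one_mul]
  ring

variable {μ : Measure Ω} {k x : ℝ} {S : ι → Ω → ℝ} {M0 : ℝ} {K Rw : Finset ι} {R : Type}
  [Fintype R]

lemma GM.row (hG : GM μ S M0) (Rw : Finset ι) (k : ℝ) : GM μ (Sr Rw k S) (|k| * M0) := by
  refine ⟨hG.fin, hG.ne, mul_nonneg (abs_nonneg k) hG.pos, fun e => ?_, fun e w => ?_⟩
  · unfold Sr
    by_cases he : e ∈ Rw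
    · simp only [he, if_true]
      exact (hG.meas e).const_mul k
    · simp only [he, if_false]
      exact measurable_const
  · unfold Sr
    by_cases he : e ∈ Rw
    · simp only [he, if_true]
      rw [abs_mul]
      exact mul_le_mul_of_nonneg_left (hG.bd e w) (abs_nonneg k)
    · simp only [he, if_false, abs_zero]
      exact mul_nonneg (abs_nonneg k) hG.pos

lemma dR_row {e : ι} (he : e ∈ Rw) (h : (R → Ω) → ℝ) :
    dR (Sr Rw k S) x e h = fun w => k * dR S x e h w := by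
  funext w
  unfold dR Sr
  simp only [he, if_true]
  rw [← Finset.mul_sum]
  ring

lemma dR_off {e : ι} (he : e ∉ Rw) (h : (R → Ω) → ℝ) :
    dR (Sr Rw k S) x e h = fun _ => 0 := by
  funext w
  unfold dR Sr
  simp only [he, if_false]
  simp

/-- first derivative -/
noncomputable def b1 (μ : Measure Ω) (k x : ℝ) (S : ι → Ω → ℝ) (K Rw : Finset ι) (R : Type)
    [Fintype R] (h : (R → Ω) → ℝ) (e : ι) (z : ι → ℝ) : ℝ :=
  bk μ k x S K (Option R) (dR (Sr Rw k S) x e h) z

/-- second derivative -/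
noncomputable def b2 (μ : Measure Ω) (k x : ℝ) (S : ι → Ω → ℝ) (K Rw : Finset ι) (R : Type)
    [Fintype R] (h : (R → Ω) → ℝ) (e f : ι) (z : ι → ℝ) : ℝ :=
  bk μ k x S K (Option (Option R)) (dR (Sr Rw k S) x f (dR (Sr Rw k S) x e h)) z

/-- third derivative -/
noncomputable def b3 (μ : Measure Ω) (k x : ℝ) (S : ι → Ω → ℝ) (K Rw : Finset ι) (R : Type)
    [Fintype R] (h : (R → Ω) → ℝ) (e f g : ι) (z : ι → ℝ) : ℝ :=
  bk μ k x S K (Option (Option (Option R)))
    (dR (Sr Rw k S) x g (dR (Sr Rw k S) x f (dR (Sr Rw k S) x e h))) z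

/-- the first derivative of the logarithm of the weight -/
noncomputable def v1 (μ : Measure Ω) (k x : ℝ) (S : ι → Ω → ℝ) (K Rw : Finset ι) (e : ι)
    (z : ι → ℝ) : ℝ := b1 μ k x S K Rw Empty (fun _ => 1) e z

section
variable (hG : GM μ S M0) (k x : ℝ) (Rw : Finset ι)
include hG

lemma bm_dr (e : ι) {h : (R → Ω) → ℝ} (hh : Bm h) : Bm (dR (Sr Rw k S) x e h) :=
  (GM.row hG Rw k).bdR x e hh

lemma bk_zero (K : Finset ι) (z : ι → ℝ) : bk μ k x S K R (fun _ => 0) z = 0 := by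
  have h1 := bk_cmul hG k x K (R := R) 0 (Bm.const 1) z
  simpa using h1

lemma bk_dr {e : ι} (he : e ∈ Rw) (K : Finset ι) {h : (R → Ω) → ℝ} (hh : Bm h) (z : ι → ℝ) :
    bk μ k x S K (Option R) (dR (Sr Rw k S) x e h) z =
      k * bk μ k x S K (Option R) (dR S x e h) z := by
  rw [dR_row he, bk_cmul hG k x K k (hG.bdR x e hh)]

lemma bk_off {e : ι} (he : e ∉ Rw) (K : Finset ι) (h : (R → Ω) → ℝ) (z : ι → ℝ) :
    bk μ k x S K (Option R) (dR (Sr Rw k S) x e h) z = 0 := by
  rw [dR_off he, bk_zero hG]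

/-- **The derivative of a bracket**, in the coordinates of the row. -/
theorem pd_bk' {e : ι} (he : e ∈ Rw) (hR : Rw ⊆ K) {h : (R → Ω) → ℝ} (hh : Bm h) :
    PD e (bk μ k x S K R h) (fun z => bk μ k x S K (Option R) (dR (Sr Rw k S) x e h) z -
      bk μ k x S K R h z * v1 μ k x S K Rw e z) := by
  refine (pd_bk hG k x (hR he) hh).congr fun z => ?_
  unfold v1 b1
  rw [bk_dr hG k x Rw he K hh, bk_dr hG k x Rw he K (Bm.const 1)]
  unfold vb
  ring

theorem pd_logwn' {e : ι} (he : e ∈ Rw) (hR : Rw ⊆ K) :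
    PD e (fun z => Real.log (wn (gs ι) K (Zxm μ k S x) z)) (v1 μ k x S K Rw e) := by
  refine (pd_logwn hG k x (hR he)).congr fun z => ?_
  unfold v1 b1
  rw [bk_dr hG k x Rw he K (Bm.const 1)]
  rfl

end

/-! ### the sums of squares -/

section sums

/-- the one replica law -/
noncomputable def r1l (μ : Measure Ω) (k x : ℝ) (S : ι → Ω → ℝ) (K : Finset ι) (z : ι → ℝ) :
    Measure Ω := (rt μ k x S K z Unit).map (fun w => w ())

/-- the moments of the overlap of the row -/
noncomputable def ro (μ : Measure Ω) (k x : ℝ) (S : ι → Ω → ℝ) (K Rw : Finset ι) (j : ℕ)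
    (z : ι → ℝ) : ℝ := rk (r1l μ k x S K z) (Sr Rw k S) j

variable (hG : GM μ S M0) (k x : ℝ) (Rw : Finset ι)
include hG

lemma r1l_prob (K : Finset ι) (z : ι → ℝ) : IsProbabilityMeasure (r1l μ k x S K z) := by
  have := rt_prob hG k x K z Unit
  exact Measure.isProbabilityMeasure_map (measurable_pi_apply ()).aemeasurable

lemma bq_row (e : ι) : Bq (Sr Rw k S e) := ⟨(GM.row hG Rw k).meas e, _, (GM.row hG Rw k).bd e⟩

lemma int_r1l (K : Finset ι) (z : ι → ℝ) {h : Ω → ℝ} (hh : Bm h) :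
    ∫ s, h s ∂(r1l μ k x S K z) = cx (gs ι) K (Zxm μ k S x) (avm μ k S h) z := by
  unfold r1l
  rw [integral_map (measurable_pi_apply ()).aemeasurable hh.meas.aestronglyMeasurable,
    int_rt hG k x K z Unit (hh.at ())]
  congr 1
  funext u
  exact hG.avR_one k () h u

/-- the general bound -/
theorem form_rt (K : Finset ι) (z : ι → ℝ) {j : ℕ} (hj : 0 < j) {Φ : (R → Ω) → ℝ}
    (hΦ : Measurable Φ) {C0 : ℝ} (hC : ∀ w, |Φ w| ≤ C0) (a : Fin j → R → ℝ) :
    ∑ e : Fin j → ι, (bk μ k x S K R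
      (fun w => Φ w * ∏ l, (∑ b, a l b * Sr Rw k S (e l) (w b))) z) ^ 2 ≤
      C0 ^ 2 * (j * ∏ l, (∑ b, |a l b|) ^ 2) * ro μ k x S K Rw j z := by
  have i1 := rt_prob hG k x K z R
  have i2 := r1l_prob hG k x K z
  have hb : ∀ e : Fin j → ι, Bm fun w : R → Ω =>
      Φ w * ∏ l, (∑ b, a l b * Sr Rw k S (e l) (w b)) := fun e => by
    have h1 : Bq fun w : R → Ω => Φ w * ∏ l, (∑ b, a l b * Sr Rw k S (e l) (w b)) :=
      Bq.mul ⟨hΦ, C0, hC⟩ (Bq.prod _ fun l _ => Bq.sum _ fun b _ =>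
        (Bq.const _).mul ((bq_row hG k Rw (e l)).comp (measurable_pi_apply b)))
    obtain ⟨m, C, hC⟩ := h1
    exact Bm.of m hC
  have h1 := form_bound (ν := rt μ k x S K z R) (ρ := r1l μ k x S K z)
    (fun b => rt_marg hG k x K z R b) (bq_row hG k Rw) hj hΦ hC a
  refine le_trans (le_of_eq ?_) h1
  refine Finset.sum_congr rfl fun e _ => ?_
  rw [bk_int hG k x K (hb e)]

theorem sum_b1 (K : Finset ι) (z : ι → ℝ) {h : (R → Ω) → ℝ} (hh : Measurable h) {C0 : ℝ}
    (hC : ∀ w, |h w| ≤ C0) :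
    ∑ e, b1 μ k x S K Rw R h e z ^ 2 ≤ C0 ^ 2 * nm x R ^ 2 * ro μ k x S K Rw 1 z := by
  have hm : Measurable fun w : Option R → Ω => h fun a => w (some a) :=
    hh.comp (measurable_pi_lambda _ fun a => measurable_pi_apply _)
  have h1 := form_rt hG k x Rw K z (j := 1) one_pos hm (fun w => hC _) (fun _ => cf x R)
  rw [sum_succ] at h1
  simp only [sum_zero, Fin.prod_univ_one, Fin.cons_zero, sum_abs_cf, Nat.cast_one, one_mul] at h1
  refine le_trans (le_of_eq ?_) h1
  refine Finset.sum_congr rfl fun e _ => ?_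
  unfold b1
  congr 3
  funext w
  exact dR_eq _ x e h w

theorem sum_b2 (K : Finset ι) (z : ι → ℝ) {h : (R → Ω) → ℝ} (hh : Measurable h) {C0 : ℝ}
    (hC : ∀ w, |h w| ≤ C0) :
    ∑ e, ∑ f, b2 μ k x S K Rw R h e f z ^ 2 ≤
      C0 ^ 2 * (2 * (nm x R ^ 2 * nm x (Option R) ^ 2)) * ro μ k x S K Rw 2 z := by
  have hm : Measurable fun w : Option (Option R) → Ω => h fun a => w (some (some a)) :=
    hh.comp (measurable_pi_lambda _ fun a => measurable_pi_apply _)
  have h1 := form_rt hG k x Rw K z (j := 2) two_pos hm (fun w => hC _)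
    (![xt (cf x R), cf x (Option R)])
  rw [sum_succ] at h1
  simp only [sum_succ, sum_zero, Fin.prod_univ_two, Fin.cons_zero, Fin.cons_one,
    Matrix.cons_val_zero, Matrix.cons_val_one, sum_abs_cf, sum_abs_xt, Nat.cast_ofNat] at h1
  refine le_trans (le_of_eq ?_) h1
  refine Finset.sum_congr rfl fun e _ => Finset.sum_congr rfl fun f _ => ?_
  unfold b2
  congr 3
  funext w
  rw [dR_eq, dR_eq, sum_xt, mul_assoc]

theorem sum_b3 (K : Finset ι) (z : ι → ℝ) {h : (R → Ω) → ℝ} (hh : Measurable h) {C0 : ℝ}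
    (hC : ∀ w, |h w| ≤ C0) :
    ∑ e, ∑ f, ∑ g, b3 μ k x S K Rw R h e f g z ^ 2 ≤
      C0 ^ 2 * (3 * (nm x R ^ 2 * nm x (Option R) ^ 2 * nm x (Option (Option R)) ^ 2)) *
        ro μ k x S K Rw 3 z := by
  have hm : Measurable fun w : Option (Option (Option R)) → Ω =>
      h fun a => w (some (some (some a))) :=
    hh.comp (measurable_pi_lambda _ fun a => measurable_pi_apply _)
  have h1 := form_rt hG k x Rw K z (j := 3) three_pos hm (fun w => hC _)
    (![xt (xt (cf x R)), xt (cf x (Option R)), cf x (Option (Option R))])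
  rw [sum_succ] at h1
  simp only [sum_succ, sum_zero, Fin.prod_univ_three] at h1
  refine le_trans (le_of_eq ?_) (h1.trans (le_of_eq ?_))
  · refine Finset.sum_congr rfl fun e _ => Finset.sum_congr rfl fun f _ =>
      Finset.sum_congr rfl fun g _ => ?_
    unfold b3
    congr 3
    funext w
    rw [dR_eq, dR_eq, dR_eq]
    show _ = _ * ((∑ b, xt (xt (cf x R)) b * Sr Rw k S e (w b)) *
      (∑ b, xt (cf x (Option R)) b * Sr Rw k S f (w b)) *
      (∑ b, cf x (Option (Option R)) b * Sr Rw k S g (w b)))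
    rw [sum_xt, sum_xt, sum_xt]
    ring
  · show C0 ^ 2 * ((3 : ℕ) * ((∑ b, |xt (xt (cf x R)) b|) ^ 2 *
      (∑ b, |xt (cf x (Option R)) b|) ^ 2 * (∑ b, |cf x (Option (Option R)) b|) ^ 2)) * _ = _
    rw [sum_abs_xt, sum_abs_xt, sum_abs_xt, sum_abs_cf, sum_abs_cf, sum_abs_cf]
    norm_num

end sums

end Vale.Agent.P146.H980
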