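import Mathlib

/-!
Sums of squares of integrals of products of linear forms (P146, block 07b-C3UP).

`Y = (R → Ω)` are replicas with a law `ν` whose one replica marginals are all equal to `ρ`;
`∑ e (∫ Φ ∏ l (∑ b, a l b * S (e l) (w b)))²` is at most
`C0² * j * ∏ l (∑ b |a l b|)² * ∫∫ |∑ e S e s S e s'| ^ j`.
-/

open MeasureTheory

namespace Vale.Agent.P146.H980

set_option linter.unusedSectionVars false

section basic

variable {Y : Type*} [MeasurableSpace Y] {f g : Y → ℝ}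

/-- bounded and measurable -/
def Bq (f : Y → ℝ) : Prop := Measurable f ∧ ∃ C : ℝ, ∀ y, |f y| ≤ C

lemma Bq.const (c : ℝ) : Bq fun _ : Y => c := ⟨measurable_const, |c|, fun _ => le_rfl⟩

lemma Bq.mul (hf : Bq f) (hg : Bq g) : Bq fun y => f y * g y := by
  obtain ⟨mf, C, hC⟩ := hf
  obtain ⟨mg, D, hD⟩ := hg
  refine ⟨mf.mul mg, C * D, fun y => ?_⟩
  rw [abs_mul]
  exact mul_le_mul (hC y) (hD y) (abs_nonneg _) ((abs_nonneg _).trans (hC y))

lemma Bq.add (hf : Bq f) (hg : Bq g) : Bq fun y => f y + g y := by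
  obtain ⟨mf, C, hC⟩ := hf
  obtain ⟨mg, D, hD⟩ := hg
  exact ⟨mf.add mg, C + D, fun y => (abs_add_le _ _).trans (add_le_add (hC y) (hD y))⟩

lemma Bq.sum {K : Type*} (s : Finset K) {F : K → Y → ℝ} (h : ∀ k ∈ s, Bq (F k)) :
    Bq fun y => ∑ k ∈ s, F k y := by
  classical
  induction s using Finset.induction_on with
  | empty => simpa using Bq.const (Y := Y) 0
  | insert a s ha ih =>
    simp only [Finset.sum_insert ha]
    exact (h a (Finset.mem_insert_self a s)).add
      (ih fun k hk => h k (Finset.mem_insert_of_mem hk))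

lemma Bq.prod {K : Type*} (s : Finset K) {F : K → Y → ℝ} (h : ∀ k ∈ s, Bq (F k)) :
    Bq fun y => ∏ k ∈ s, F k y := by
  classical
  induction s using Finset.induction_on with
  | empty => simpa using Bq.const (Y := Y) 1
  | insert a s ha ih =>
    simp only [Finset.prod_insert ha]
    exact (h a (Finset.mem_insert_self a s)).mul
      (ih fun k hk => h k (Finset.mem_insert_of_mem hk))

lemma Bq.abs (hf : Bq f) : Bq fun y => |f y| := by
  obtain ⟨mf, C, hC⟩ := hf
  exact ⟨mf.abs, C, fun y => by rw [abs_abs]; exact hC y⟩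

lemma Bq.pow (hf : Bq f) (n : ℕ) : Bq fun y => f y ^ n := by
  induction n with
  | zero => simpa using Bq.const (Y := Y) 1
  | succ n ih => simpa only [pow_succ] using ih.mul hf

lemma Bq.comp {Z : Type*} [MeasurableSpace Z] (hf : Bq f) {u : Z → Y} (hu : Measurable u) :
    Bq fun z => f (u z) := by
  obtain ⟨mf, C, hC⟩ := hf
  exact ⟨mf.comp hu, C, fun z => hC _⟩

lemma Bq.integrable {ν : Measure Y} [IsFiniteMeasure ν] (hf : Bq f) : Integrable f ν := by
  obtain ⟨mf, C, hC⟩ := hf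
  refine Integrable.mono' (integrable_const C) mf.aestronglyMeasurable
    (Filter.Eventually.of_forall fun y => ?_)
  rw [Real.norm_eq_abs]
  exact hC y

end basic

/-- a product is at most the sum of the powers -/
lemma prod_le_sum_pow {j : ℕ} (hj : 0 < j) (x : Fin j → ℝ) (hx : ∀ l, 0 ≤ x l) :
    ∏ l, x l ≤ ∑ l, x l ^ j := by
  have : Nonempty (Fin j) := ⟨⟨0, hj⟩⟩
  obtain ⟨m, -, hm⟩ := Finset.exists_max_image Finset.univ x ⟨⟨0, hj⟩, Finset.mem_univ _⟩
  calc ∏ l, x l ≤ ∏ _l : Fin j, x m :=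
        Finset.prod_le_prod (fun l _ => hx l) fun l hl => hm l hl
    _ = x m ^ j := by rw [Finset.prod_const, Finset.card_univ, Fintype.card_fin]
    _ ≤ ∑ l, x l ^ j := Finset.single_le_sum (f := fun l => x l ^ j)
        (fun l _ => pow_nonneg (hx l) j) (Finset.mem_univ m)

section form

variable {Y : Type*} [MeasurableSpace Y] {ν : Measure Y} [IsProbabilityMeasure ν]
  {κ : Type*} [Fintype κ] [DecidableEq κ]

/-- the sum of the squares as a double integral -/
theorem form_eq {j : ℕ} {Φ : Y → ℝ} (hΦ : Bq Φ) {t : Fin j → κ → Y → ℝ}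
    (ht : ∀ l e, Bq (t l e)) :
    ∑ e : Fin j → κ, (∫ y, Φ y * ∏ l, t l (e l) y ∂ν) ^ 2 =
      ∫ p, Φ p.1 * Φ p.2 * ∏ l, (∑ e, t l e p.1 * t l e p.2) ∂(ν.prod ν) := by
  have hB : ∀ e : Fin j → κ, Bq fun y => Φ y * ∏ l, t l (e l) y := fun e =>
    hΦ.mul (Bq.prod _ fun l _ => ht l (e l))
  have h1 : ∀ p : Y × Y, Φ p.1 * Φ p.2 * ∏ l, (∑ e, t l e p.1 * t l e p.2) =
      ∑ e : Fin j → κ, (Φ p.1 * ∏ l, t l (e l) p.1) * (Φ p.2 * ∏ l, t l (e l) p.2) := by
    intro p
    rw [Finset.prod_univ_sum, Fintype.piFinset_univ, Finset.mul_sum]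
    refine Finset.sum_congr rfl fun e _ => ?_
    rw [Finset.prod_mul_distrib]
    ring
  simp only [h1]
  rw [integral_finsetSum _ fun e _ => ((hB e).comp measurable_fst).mul
    ((hB e).comp measurable_snd) |>.integrable]
  refine Finset.sum_congr rfl fun e _ => ?_
  rw [integral_prod_mul (f := fun y => Φ y * ∏ l, t l (e l) y)
    (g := fun y => Φ y * ∏ l, t l (e l) y), sq]

end form

section repl

variable {Ω : Type*} [MeasurableSpace Ω] {R : Type*} [Fintype R]
  {κ : Type*} [Fintype κ] [DecidableEq κ]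

/-- the kernel `∑ e S e s S e s'` -/
def Gk (S : κ → Ω → ℝ) (p : Ω × Ω) : ℝ := ∑ e, S e p.1 * S e p.2

lemma bq_Gk {S : κ → Ω → ℝ} (hS : ∀ e, Bq (S e)) : Bq (Gk S) :=
  Bq.sum _ fun e _ => ((hS e).comp measurable_fst).mul ((hS e).comp measurable_snd)

/-- the moments of the kernel -/
noncomputable def rk (ρ : Measure Ω) (S : κ → Ω → ℝ) (j : ℕ) : ℝ :=
  ∫ p, |Gk S p| ^ j ∂(ρ.prod ρ)

theorem form_bound {ν : Measure (R → Ω)} [IsProbabilityMeasure ν] {ρ : Measure Ω}
    [IsProbabilityMeasure ρ] (hm : ∀ b : R, ν.map (fun w => w b) = ρ) {S : κ → Ω → ℝ}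
    (hS : ∀ e, Bq (S e)) {j : ℕ} (hj : 0 < j) {Φ : (R → Ω) → ℝ} (hΦm : Measurable Φ) {C0 : ℝ}
    (hC : ∀ w, |Φ w| ≤ C0) (a : Fin j → R → ℝ) :
    ∑ e : Fin j → κ, (∫ w, Φ w * ∏ l, (∑ b, a l b * S (e l) (w b)) ∂ν) ^ 2 ≤
      C0 ^ 2 * (j * ∏ l, (∑ b, |a l b|) ^ 2) * rk ρ S j := by
  have hΦ : Bq Φ := ⟨hΦm, C0, hC⟩
  have ht : ∀ (l : Fin j) e, Bq fun w : R → Ω => ∑ b, a l b * S e (w b) := fun l e =>
    Bq.sum _ fun b _ => (Bq.const _).mul ((hS e).comp (measurable_pi_apply b))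
  rw [form_eq (t := fun l e w => ∑ b, a l b * S e (w b)) hΦ ht]
  have hG := bq_Gk hS
  have hpair : ∀ q : R × R, Measurable fun p : (R → Ω) × (R → Ω) => (p.1 q.1, p.2 q.2) :=
    fun q => ((measurable_pi_apply q.1).comp measurable_fst).prodMk
      ((measurable_pi_apply q.2).comp measurable_snd)
  -- the inner products
  have hin : ∀ (l : Fin j) (p : (R → Ω) × (R → Ω)),
      ∑ e, (∑ b, a l b * S e (p.1 b)) * (∑ b, a l b * S e (p.2 b)) =
        ∑ q : R × R, a l q.1 * a l q.2 * Gk S (p.1 q.1, p.2 q.2) := by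
    intro l p
    rw [Fintype.sum_prod_type]
    have h1 : ∀ e, (∑ b, a l b * S e (p.1 b)) * (∑ b, a l b * S e (p.2 b)) =
        ∑ b, ∑ b', a l b * a l b' * (S e (p.1 b) * S e (p.2 b')) := fun e => by
      rw [Finset.sum_mul_sum]
      exact Finset.sum_congr rfl fun b _ => Finset.sum_congr rfl fun b' _ => by ring
    simp only [h1]
    rw [Finset.sum_comm]
    refine Finset.sum_congr rfl fun b _ => ?_
    rw [Finset.sum_comm]
    refine Finset.sum_congr rfl fun b' _ => ?_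
    unfold Gk
    rw [Finset.mul_sum]
  have hle : ∀ p : (R → Ω) × (R → Ω), Φ p.1 * Φ p.2 *
      ∏ l, (∑ e, (∑ b, a l b * S e (p.1 b)) * (∑ b, a l b * S e (p.2 b))) ≤
      C0 ^ 2 * ∑ q : Fin j → R × R, (∏ l, (|a l (q l).1| * |a l (q l).2|)) *
        ∑ l, |Gk S (p.1 (q l).1, p.2 (q l).2)| ^ j := by
    intro p
    have hC0 : 0 ≤ C0 := (abs_nonneg _).trans (hC p.1)
    have h1 : |Φ p.1 * Φ p.2| ≤ C0 ^ 2 := by
      rw [abs_mul, sq]
      exact mul_le_mul (hC _) (hC _) (abs_nonneg _) hC0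
    have h2 : |∏ l, (∑ e, (∑ b, a l b * S e (p.1 b)) * (∑ b, a l b * S e (p.2 b)))| ≤
        ∑ q : Fin j → R × R, (∏ l, (|a l (q l).1| * |a l (q l).2|)) *
          ∑ l, |Gk S (p.1 (q l).1, p.2 (q l).2)| ^ j := by
      rw [Finset.abs_prod]
      calc ∏ l, |∑ e, (∑ b, a l b * S e (p.1 b)) * (∑ b, a l b * S e (p.2 b))|
          ≤ ∏ l, ∑ q : R × R, |a l q.1| * |a l q.2| * |Gk S (p.1 q.1, p.2 q.2)| := by
            refine Finset.prod_le_prod (fun l _ => abs_nonneg _) fun l _ => ?_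
            rw [hin l p]
            refine (Finset.abs_sum_le_sum_abs _ _).trans (le_of_eq ?_)
            refine Finset.sum_congr rfl fun q _ => ?_
            rw [abs_mul, abs_mul]
        _ = ∑ q : Fin j → R × R, ∏ l, (|a l (q l).1| * |a l (q l).2| *
              |Gk S (p.1 (q l).1, p.2 (q l).2)|) := by
            rw [Finset.prod_univ_sum, Fintype.piFinset_univ]
        _ ≤ _ := by
            refine Finset.sum_le_sum fun q _ => ?_
            rw [Finset.prod_mul_distrib]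
            refine mul_le_mul_of_nonneg_left ?_ (Finset.prod_nonneg fun l _ => by positivity)
            exact prod_le_sum_pow hj _ fun l => abs_nonneg _
    calc _ ≤ |Φ p.1 * Φ p.2 *
          ∏ l, (∑ e, (∑ b, a l b * S e (p.1 b)) * (∑ b, a l b * S e (p.2 b)))| := le_abs_self _
      _ = |Φ p.1 * Φ p.2| *
          |∏ l, (∑ e, (∑ b, a l b * S e (p.1 b)) * (∑ b, a l b * S e (p.2 b)))| := abs_mul _ _
      _ ≤ _ := mul_le_mul h1 h2 (abs_nonneg _) (by positivity)
  have hI : ∀ q : R × R, ∫ p, |Gk S (p.1 q.1, p.2 q.2)| ^ j ∂(ν.prod ν) = rk ρ S j := by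
    intro q
    have e1 : (ν.prod ν).map (fun p : (R → Ω) × (R → Ω) => (p.1 q.1, p.2 q.2)) = ρ.prod ρ := by
      have := Measure.map_prod_map ν ν (f := fun w : R → Ω => w q.1) (g := fun w : R → Ω => w q.2)
        (measurable_pi_apply _) (measurable_pi_apply _)
      rw [hm, hm] at this
      rw [this]
      rfl
    unfold rk
    rw [← e1, integral_map (hpair q).aemeasurable
      (hG.abs.pow j).1.aestronglyMeasurable]
  have hBq : ∀ q : R × R, Bq fun p : (R → Ω) × (R → Ω) => |Gk S (p.1 q.1, p.2 q.2)| ^ j :=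
    fun q => (hG.abs.pow j).comp (hpair q)
  have hB1 : Bq fun p : (R → Ω) × (R → Ω) => Φ p.1 * Φ p.2 *
      ∏ l, (∑ e, (∑ b, a l b * S e (p.1 b)) * (∑ b, a l b * S e (p.2 b))) :=
    ((hΦ.comp measurable_fst).mul (hΦ.comp measurable_snd)).mul
      (Bq.prod _ fun l _ => Bq.sum _ fun e _ =>
        ((ht l e).comp measurable_fst).mul ((ht l e).comp measurable_snd))
  have hB2 : ∀ q : Fin j → R × R, Bq fun p : (R → Ω) × (R → Ω) =>
      (∏ l, (|a l (q l).1| * |a l (q l).2|)) * ∑ l, |Gk S (p.1 (q l).1, p.2 (q l).2)| ^ j :=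
    fun q => (Bq.const _).mul (Bq.sum _ fun l _ => hBq (q l))
  calc _ ≤ ∫ p, C0 ^ 2 * ∑ q : Fin j → R × R, (∏ l, (|a l (q l).1| * |a l (q l).2|)) *
        ∑ l, |Gk S (p.1 (q l).1, p.2 (q l).2)| ^ j ∂(ν.prod ν) :=
        integral_mono hB1.integrable
          ((Bq.const _).mul (Bq.sum _ fun q _ => hB2 q)).integrable hle
    _ = C0 ^ 2 * ∑ q : Fin j → R × R, (∏ l, (|a l (q l).1| * |a l (q l).2|)) *
          (j * rk ρ S j) := by
        rw [integral_const_mul, integral_finsetSum _ fun q _ => (hB2 q).integrable]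
        congr 1
        refine Finset.sum_congr rfl fun q _ => ?_
        rw [integral_const_mul, integral_finsetSum _ fun l _ => (hBq (q l)).integrable]
        congr 1
        simp only [hI]
        rw [Finset.sum_const, Finset.card_univ, Fintype.card_fin, nsmul_eq_mul]
    _ = _ := by
        rw [← Finset.sum_mul]
        have e2 : ∑ q : Fin j → R × R, ∏ l, (|a l (q l).1| * |a l (q l).2|) =
            ∏ l, (∑ b, |a l b|) ^ 2 := by
          rw [← Fintype.piFinset_univ, ← Finset.prod_univ_sum (κ := fun _ : Fin j => R × R)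
            (fun _ => Finset.univ) (fun l q => |a l q.1| * |a l q.2|)]
          refine Finset.prod_congr rfl fun l _ => ?_
          rw [Fintype.sum_prod_type, sq, Finset.sum_mul_sum]
        rw [e2]
        ring

end repl

/-! ### nested sums -/

section nest

variable {κ : Type*} [Fintype κ]

lemma sum_succ {n : ℕ} (F : (Fin (n + 1) → κ) → ℝ) :
    ∑ e, F e = ∑ a, ∑ e' : Fin n → κ, F (Fin.cons a e') := by
  rw [← (Fin.consEquiv (fun _ => κ)).sum_comp, Fintype.sum_prod_type]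
  rfl

lemma sum_zero (F : (Fin 0 → κ) → ℝ) : ∑ e, F e = F Fin.elim0 := by
  rw [Fintype.sum_unique]
  congr 1

end nest

end Vale.Agent.P146.H980
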