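import Vale.Agent.P146.H196.Gib2
import Vale.Agent.P146.H487.N4cx
import Vale.Agent.P146.H980.Form

/-!
The law of the replicas given the coordinates in `K` (P146, block 07b-C3UP): a probability measure
`rt` on `R → Ω` with `∫ Φ d(rt) = cx K w (avR Φ)`, `w = Z ^ x`, and its marginals.
-/

open MeasureTheory ProbabilityTheory

namespace Vale.Agent.P146.H980

open Vale.Agent.P157.Lv Vale.Agent.P146.H425 Vale.Agent.P146.H196
open Vale.Agent.P146.H646 (glue wn cx Wt BM)
open Vale.Agent.P146.H487 (gs)

set_option linter.unusedSectionVars false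

variable {ι : Type} [Fintype ι] [DecidableEq ι] {Ω : Type} [MeasurableSpace Ω]
  {μ : Measure Ω} {k x : ℝ} {S : ι → Ω → ℝ} {M0 : ℝ}

/-- the joint density of the hidden coordinates and of the replicas -/
noncomputable def dn (μ : Measure Ω) (k x : ℝ) (S : ι → Ω → ℝ) (K : Finset ι) (z : ι → ℝ)
    (R : Type) [Fintype R] (p : (ι → ℝ) × (R → Ω)) : ℝ :=
  Zxm μ k S x (glue K z p.1) / wn (gs ι) K (Zxm μ k S x) z *
    (ezm k (SR R S) (glue K z p.1) p.2 / Zm (Measure.pi fun _ : R => μ) k (SR R S) (glue K z p.1))

/-- the law of the replicas given the coordinates in `K` -/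
noncomputable def rt (μ : Measure Ω) (k x : ℝ) (S : ι → Ω → ℝ) (K : Finset ι) (z : ι → ℝ)
    (R : Type) [Fintype R] : Measure (R → Ω) :=
  (((gI ι).prod (Measure.pi fun _ : R => μ)).withDensity
    (fun p => ENNReal.ofReal (dn μ k x S K z R p))).map Prod.snd

section
variable (hG : GM μ S M0) (k x : ℝ) (K : Finset ι) (z : ι → ℝ) (R : Type) [Fintype R]
include hG

lemma meas_ez : Measurable fun p : (ι → ℝ) × Ω => ezm k S p.1 p.2 := by
  unfold ezm
  refine Real.measurable_exp.comp (measurable_const.mul (Finset.measurable_sum _ fun e _ => ?_))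
  exact ((hG.meas e).comp measurable_snd).mul ((measurable_pi_apply e).comp measurable_fst)

lemma meas_dn : Measurable (dn μ k x S K z R) := by
  have hP := hG.pi R
  have := hP.fin
  have h1 : Measurable fun p : (ι → ℝ) × (R → Ω) => glue K z p.1 :=
    (H646.measurable_glue_right K z).comp measurable_fst
  have h2 : Measurable fun p : (ι → ℝ) × (R → Ω) => ezm k (SR R S) (glue K z p.1) p.2 :=
    (meas_ez hP k).comp (h1.prodMk measurable_snd)
  have h3 : Measurable (Zm (Measure.pi fun _ : R => μ) k (SR R S)) := by
    have h4 : StronglyMeasurable (Function.uncurry fun (u : ι → ℝ) (s : R → Ω) =>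
        ezm k (SR R S) u s) := (meas_ez hP k).stronglyMeasurable
    exact (h4.integral_prod_right (ν := Measure.pi fun _ : R => μ)).measurable
  exact (((hG.meas_Zx k x).comp h1).div_const _).mul (h2.div (h3.comp h1))

lemma dn_nonneg (p : (ι → ℝ) × (R → Ω)) : 0 ≤ dn μ k x S K z R p := by
  have hP := hG.pi R
  have h1 := Zxm_pos (μ := μ) (k := k) (S := S) x (glue K z p.1)
  have h2 := (hG.wt k x).wn_pos K z
  have h3 := ezm_pos (k := k) (S := SR R S) (glue K z p.1) p.2
  have h4 := hP.Z_pos k (glue K z p.1)
  unfold dn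
  exact mul_nonneg (div_nonneg h1.le h2.le) (div_nonneg h3.le h4.le)

lemma int_inner {h : (R → Ω) → ℝ} (y : ι → ℝ) :
    ∫ s, dn μ k x S K z R (y, s) * h s ∂(Measure.pi fun _ : R => μ) =
      Zxm μ k S x (glue K z y) / wn (gs ι) K (Zxm μ k S x) z * avR μ k S R h (glue K z y) := by
  unfold dn avR avm
  simp only
  rw [← integral_div, ← integral_const_mul]
  refine integral_congr_ae (Filter.Eventually.of_forall fun s => ?_)
  simp only
  ring

lemma integrable_dn {h : (R → Ω) → ℝ} (hh : Bm h) :
    Integrable (fun p : (ι → ℝ) × (R → Ω) => dn μ k x S K z R p * h p.2)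
      ((gI ι).prod (Measure.pi fun _ : R => μ)) := by
  have hP := hG.pi R
  have := hP.fin
  have hm : Measurable fun p : (ι → ℝ) × (R → Ω) => dn μ k x S K z R p * h p.2 :=
    (meas_dn hG k x K z R).mul (hh.meas.comp measurable_snd)
  rw [integrable_prod_iff hm.aestronglyMeasurable]
  have habs : Bm fun s : R → Ω => |h s| := by
    obtain ⟨C, _, hb⟩ := hh.2
    exact Bm.of hh.meas.abs fun s => by rw [abs_abs]; exact hb s
  constructor
  · refine Filter.Eventually.of_forall fun y => ?_
    have h1 : Bm fun s : R → Ω => dn μ k x S K z R (y, s) * h s := by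
      have h2 := ((hP.bez k (glue K z y)).mul hh).const_mul
        (Zxm μ k S x (glue K z y) / wn (gs ι) K (Zxm μ k S x) z /
          Zm (Measure.pi fun _ : R => μ) k (SR R S) (glue K z y))
      have e : (fun s : R → Ω => dn μ k x S K z R (y, s) * h s) = fun s =>
          Zxm μ k S x (glue K z y) / wn (gs ι) K (Zxm μ k S x) z /
          Zm (Measure.pi fun _ : R => μ) k (SR R S) (glue K z y) *
          (ezm k (SR R S) (glue K z y) s * h s) := by
        funext s
        unfold dn
        simp only
        ring
      rw [e]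
      exact h2
    exact h1.integrable
  · have e : (fun y => ∫ s, ‖dn μ k x S K z R (y, s) * h s‖ ∂(Measure.pi fun _ : R => μ)) =
        fun y => (1 / wn (gs ι) K (Zxm μ k S x) z) * (Zxm μ k S x (glue K z y) *
          avR μ k S R (fun s => |h s|) (glue K z y)) := by
      funext y
      have h1 : ∀ s : R → Ω, ‖dn μ k x S K z R (y, s) * h s‖ =
          dn μ k x S K z R (y, s) * |h s| := fun s => by
        rw [Real.norm_eq_abs, abs_mul, abs_of_nonneg (dn_nonneg hG k x K z R (y, s))]
      simp only [h1]
      rw [int_inner hG]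
      ring
    rw [e]
    have h3 : EG fun u => Zxm μ k S x u * avR μ k S R (fun s => |h s|) u :=
      (hG.eg_Zx k x).mul (hG.eg_avR k habs)
    exact ((eg_glue h3 K z).const_mul _).integrable

/-- **The integral with respect to the law of the replicas.** -/
theorem int_rt {h : (R → Ω) → ℝ} (hh : Bm h) :
    ∫ s, h s ∂(rt μ k x S K z R) = cx (gs ι) K (Zxm μ k S x) (avR μ k S R h) z := by
  have hP := hG.pi R
  have := hP.fin
  have hm := meas_dn hG k x K z R
  have hm' : Measurable fun p : (ι → ℝ) × (R → Ω) => ENNReal.ofReal (dn μ k x S K z R p) :=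
    ENNReal.measurable_ofReal.comp hm
  unfold rt
  rw [integral_map measurable_snd.aemeasurable hh.meas.aestronglyMeasurable,
    integral_withDensity_eq_integral_toReal_smul hm'
      (Filter.Eventually.of_forall fun p => ENNReal.ofReal_lt_top)]
  have e : ∀ p : (ι → ℝ) × (R → Ω), (ENNReal.ofReal (dn μ k x S K z R p)).toReal • h p.2 =
      dn μ k x S K z R p * h p.2 := fun p => by
    rw [ENNReal.toReal_ofReal (dn_nonneg hG k x K z R p), smul_eq_mul]
  simp only [e]
  rw [integral_prod _ (integrable_dn hG k x K z R hh)]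
  simp only [int_inner hG]
  unfold cx
  rw [← integral_div]
  refine integral_congr_ae (Filter.Eventually.of_forall fun y => ?_)
  simp only
  ring

lemma rt_prob : IsProbabilityMeasure (rt μ k x S K z R) := by
  have hP := hG.pi R
  have := hP.fin
  have hm := meas_dn hG k x K z R
  have h1 := int_rt hG k x K z R (Bm.const 1)
  have h2 : cx (gs ι) K (Zxm μ k S x) (avR μ k S R fun _ => (1 : ℝ)) z = 1 := by
    have e : (avR μ k S R fun _ => (1 : ℝ)) = fun _ => (1 : ℝ) := by
      funext u
      exact hP.av_one k u
    rw [e]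
    exact H646.cx_one (hG.wt k x) z
  rw [h2] at h1
  have hfin : IsFiniteMeasure (rt μ k x S K z R) := by
    have h3 := integrable_dn hG k x K z R (Bm.const 1)
    have h4 : IsFiniteMeasure (((gI ι).prod (Measure.pi fun _ : R => μ)).withDensity
        (fun p => ENNReal.ofReal (dn μ k x S K z R p))) := by
      refine isFiniteMeasure_withDensity_ofReal ?_
      simpa using h3.2
    unfold rt
    infer_instance
  constructor
  rw [integral_const, smul_eq_mul, mul_one] at h1
  have h5 : (rt μ k x S K z R Set.univ).toReal = 1 := h1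
  have h6 : rt μ k x S K z R Set.univ ≠ ⊤ := measure_ne_top _ _
  rw [← ENNReal.ofReal_toReal h6, h5, ENNReal.ofReal_one]

/-- the one replica law -/
theorem rt_marg (b : R) : (rt μ k x S K z R).map (fun w => w b) =
    (rt μ k x S K z Unit).map (fun w => w ()) := by
  have := rt_prob hG k x K z R
  have := rt_prob hG k x K z Unit
  have hp1 : IsProbabilityMeasure ((rt μ k x S K z R).map (fun w => w b)) :=
    Measure.isProbabilityMeasure_map (measurable_pi_apply b).aemeasurable
  have hp2 : IsProbabilityMeasure ((rt μ k x S K z Unit).map (fun w => w ())) :=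
    Measure.isProbabilityMeasure_map (measurable_pi_apply ()).aemeasurable
  refine Measure.ext fun A hA => ?_
  rw [← ENNReal.toReal_eq_toReal_iff' (measure_ne_top _ _) (measure_ne_top _ _)]
  have h1 : ∀ (R' : Type) [Fintype R'] (c : R'),
      ((rt μ k x S K z R').map (fun w => w c) A).toReal =
        cx (gs ι) K (Zxm μ k S x) (avm μ k S (A.indicator fun _ => (1 : ℝ))) z := by
    intro R' _ c
    have := rt_prob hG k x K z R'
    have hI : Bm (A.indicator fun _ : Ω => (1 : ℝ)) := Bm.of
      (measurable_const.indicator hA) (C := 1) fun w => by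
        by_cases hw : w ∈ A
        · rw [Set.indicator_of_mem hw]; simp
        · rw [Set.indicator_of_notMem hw]; simp
    have h2 := int_rt hG k x K z R' (hI.at c)
    have h3 : avR μ k S R' (fun w => A.indicator (fun _ => (1 : ℝ)) (w c)) =
        avm μ k S (A.indicator fun _ => (1 : ℝ)) := by
      funext u
      exact hG.avR_one k c _ u
    rw [h3] at h2
    rw [← h2, Measure.map_apply (measurable_pi_apply c) hA]
    have h4 : (fun w : R' → Ω => A.indicator (fun _ => (1 : ℝ)) (w c)) =
        ((fun w : R' → Ω => w c) ⁻¹' A).indicator fun _ => (1 : ℝ) := by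
      funext w
      by_cases hw : w c ∈ A
      · rw [Set.indicator_of_mem hw, Set.indicator_of_mem]
        exact hw
      · rw [Set.indicator_of_notMem hw, Set.indicator_of_notMem]
        exact hw
    rw [h4, integral_indicator ((measurable_pi_apply c) hA)]
    simp [Measure.real]
  rw [h1 R b, h1 Unit ()]

end

end Vale.Agent.P146.H980
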