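import Vale.Agent.P146.H161.RowCx
import Vale.Agent.P146.H980.Root

/-!
Brackets (P146, block 07b-C3UP): `bk R h = cx K w (avR R h)`, `w = Z ^ x`, and its derivatives in
the coordinates of `K`.
-/

open MeasureTheory ProbabilityTheory

namespace Vale.Agent.P146.H980

open Vale.Agent.P157.Lv Vale.Agent.P146.H425 Vale.Agent.P146.H196
open Vale.Agent.P146.H646 (glue wn cx Wt BM)
open Vale.Agent.P146.H487 (gs)
open Vale.Agent.P146.H161 (lvK mix_lvK)

set_option linter.unusedSectionVars false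

variable {ι : Type} [Fintype ι] [DecidableEq ι] {Ω : Type} [MeasurableSpace Ω]

/-- the bracket -/
noncomputable def bk (μ : Measure Ω) (k x : ℝ) (S : ι → Ω → ℝ) (K : Finset ι) (R : Type)
    [Fintype R] (h : (R → Ω) → ℝ) (z : ι → ℝ) : ℝ :=
  cx (gs ι) K (Zxm μ k S x) (avR μ k S R h) z

/-- the bracket of `dR e 1`: the derivative of `log wn` divided by `k` -/
noncomputable def vb (μ : Measure Ω) (k x : ℝ) (S : ι → Ω → ℝ) (K : Finset ι) (e : ι)
    (z : ι → ℝ) : ℝ := bk μ k x S K (Option Empty) (dR S x e fun _ => 1) z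

variable {μ : Measure Ω} {k x : ℝ} {S : ι → Ω → ℝ} {M0 : ℝ} {K : Finset ι} {R : Type} [Fintype R]

lemma J_eq (H : (ι → ℝ) → ℝ) (z : ι → ℝ) : J (lvK K) 0 H z = ∫ y, H (glue K z y) ∂(gI ι) := by
  unfold J
  simp only [mix_lvK]

section
variable (hG : GM μ S M0) (k x : ℝ)
include hG

lemma bk_num (K : Finset ι) (h : (R → Ω) → ℝ) (z : ι → ℝ) :
    bk μ k x S K R h z = J (lvK K) 0 (fun u => Zxm μ k S x u * avR μ k S R h u) z /
      J (lvK K) 0 (Zxm μ k S x) z := by
  rw [J_eq, J_eq]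
  rfl

lemma bm_bk (K : Finset ι) {h : (R → Ω) → ℝ} (hh : Bm h) : BM (bk μ k x S K R h) :=
  (hG.wt k x).bm_cx K (hG.bm_avR k hh)

lemma dep_bk (K : Finset ι) (h : (R → Ω) → ℝ) : H646.Dep K (bk μ k x S K R h) := H646.dep_cx K

lemma eg_bk (K : Finset ι) {h : (R → Ω) → ℝ} (hh : Bm h) : EG (bk μ k x S K R h) := by
  obtain ⟨C, hC⟩ := (bm_bk hG k x K hh).bd
  exact EG.of_bdd (bm_bk hG k x K hh).meas hC

lemma bk_int (K : Finset ι) {h : (R → Ω) → ℝ} (hh : Bm h) (z : ι → ℝ) :
    bk μ k x S K R h z = ∫ s, h s ∂(rt μ k x S K z R) := (int_rt hG k x K z R hh).symm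

lemma bk_add (K : Finset ι) {h g : (R → Ω) → ℝ} (hh : Bm h) (hg : Bm g) (z : ι → ℝ) :
    bk μ k x S K R (fun w => h w + g w) z = bk μ k x S K R h z + bk μ k x S K R g z := by
  have := rt_prob hG k x K z R
  rw [bk_int hG k x K hh, bk_int hG k x K hg, bk_int hG k x K (hh.add hg),
    integral_add hh.integrable hg.integrable]

lemma bk_cmul (K : Finset ι) (c : ℝ) {h : (R → Ω) → ℝ} (hh : Bm h) (z : ι → ℝ) :
    bk μ k x S K R (fun w => c * h w) z = c * bk μ k x S K R h z := by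
  rw [bk_int hG k x K hh, bk_int hG k x K (hh.const_mul c), integral_const_mul]

lemma abs_bk_le (K : Finset ι) {h : (R → Ω) → ℝ} (hh : Measurable h) {C : ℝ}
    (hC : ∀ w, |h w| ≤ C) (z : ι → ℝ) : |bk μ k x S K R h z| ≤ C := by
  have := rt_prob hG k x K z R
  rw [bk_int hG k x K (Bm.of hh hC)]
  refine (abs_integral_le_integral_abs).trans ?_
  have h1 : ∫ s, |h s| ∂(rt μ k x S K z R) ≤ ∫ _s, C ∂(rt μ k x S K z R) :=
    integral_mono (Bm.of hh hC).integrable.abs (integrable_const C) fun s => hC s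
  rwa [integral_const, probReal_univ, one_smul] at h1

/-- the derivative of the numerator -/
lemma pd_J {e : ι} (he : e ∈ K) {h : (R → Ω) → ℝ} (hh : Bm h) :
    PD e (J (lvK K) 0 fun u => Zxm μ k S x u * avR μ k S R h u)
      (fun z => k * J (lvK K) 0 (fun u => Zxm μ k S x u *
        avR μ k S (Option R) (dR S x e h) u) z) := by
  obtain ⟨F2, hc⟩ := hG.c2_ZavR k x hh
  have h1 : PD e (J (lvK K) 0 fun u => Zxm μ k S x u * avR μ k S R h u)
      (J (lvK K) 0 fun u => k * (Zxm μ k S x u * avR μ k S (Option R) (dR S x e h) u)) :=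
    (hc.pd0 e).J hc.eg (hc.eg1 e) (by simp [lvK, he])
  refine h1.congr fun z => ?_
  unfold J
  rw [integral_const_mul]

lemma pd_J1 {e : ι} (he : e ∈ K) :
    PD e (J (lvK K) 0 (Zxm μ k S x))
      (fun z => k * J (lvK K) 0 (fun u => Zxm μ k S x u *
        avR μ k S (Option Empty) (dR S x e fun _ => 1) u) z) := by
  have h1 := pd_J hG k x he (R := Empty) (Bm.const 1)
  have h2 : (fun u => Zxm μ k S x u * avR μ k S Empty (fun _ => (1 : ℝ)) u) = Zxm μ k S x := by
    funext u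
    have : avR μ k S Empty (fun _ => (1 : ℝ)) u = 1 := (hG.pi Empty).av_one k u
    rw [this, mul_one]
  rwa [h2] at h1

lemma J_pos' (K : Finset ι) (z : ι → ℝ) : 0 < J (lvK K) 0 (Zxm μ k S x) z := by
  have := (hG.wt k x).wn_pos K z
  rw [J_eq]
  exact this

/-- **The derivative of a bracket.** -/
theorem pd_bk {e : ι} (he : e ∈ K) {h : (R → Ω) → ℝ} (hh : Bm h) :
    PD e (bk μ k x S K R h) (fun z => k * (bk μ k x S K (Option R) (dR S x e h) z -
      bk μ k x S K R h z * vb μ k x S K e z)) := by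
  have h1 := (pd_J hG k x he hh).div (pd_J1 hG k x he) fun z => (J_pos' hG k x K z).ne'
  have e1 : (fun z => J (lvK K) 0 (fun u => Zxm μ k S x u * avR μ k S R h u) z /
      J (lvK K) 0 (Zxm μ k S x) z) = bk μ k x S K R h := by
    funext z
    exact (bk_num hG k x K h z).symm
  rw [e1] at h1
  refine h1.congr fun z => ?_
  have hp := (J_pos' hG k x K z).ne'
  rw [bk_num hG k x K h z, bk_num hG k x K (dR S x e h) z]
  unfold vb
  rw [bk_num hG k x K (dR S x e fun _ => 1) z]
  field_simp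

/-- the derivative of the logarithm of the marginal weight -/
theorem pd_logwn {e : ι} (he : e ∈ K) :
    PD e (fun z => Real.log (wn (gs ι) K (Zxm μ k S x) z)) (fun z => k * vb μ k x S K e z) := by
  have h1 := (pd_J1 hG k x he).log fun z => (J_pos' hG k x K z).ne'
  have e1 : (fun z => Real.log (J (lvK K) 0 (Zxm μ k S x) z)) =
      fun z => Real.log (wn (gs ι) K (Zxm μ k S x) z) := by
    funext z
    rw [J_eq]
    rfl
  rw [e1] at h1
  refine h1.congr fun z => ?_
  unfold vb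
  rw [bk_num hG k x K (dR S x e fun _ => 1) z]
  ring

end

end Vale.Agent.P146.H980
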