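import Vale.Agent.P146.H347.Mod1
import Vale.Agent.P146.H980.C3Up
import Vale.Agent.P146.H980.Mom
import Vale.Agent.P146.H980.Alg

/-!
The last square of the row identity in the language of block conditioning (P146, block
07b-C3UP). `K` frozen, `Rw` the row, `K' = K ∪ Rw`, `w = Z ^ x`, `P` an odd observable,
`N = cx K' w ⟨P⟩`. Then, for every `u` and every `δ > 0`,
`cx K w (N - ∑ u e z e)² ≤ 6 ∑ e (cx K w (z e N) - u e)² + C (δ cx K w q2 + cx K w q4 / δ)`
where `q2, q4` are the second and the fourth moment of the overlap of the row given `K'`.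
-/

open MeasureTheory ProbabilityTheory

namespace Vale.Agent.P146.H980

open Vale.Agent.P157.Lv Vale.Agent.P146.H425 Vale.Agent.P146.H196
open Vale.Agent.P146.H646 (glue wn cx Wt BM)
open Vale.Agent.P146.H487 (gs)
open Vale.Agent.P146.H161 (lvK mix_lvK lc)
open Vale.Agent.P146.H347 (Sym ac)

set_option linter.unusedSectionVars false

variable {ι : Type} [Fintype ι] [DecidableEq ι] {Ω : Type} [MeasurableSpace Ω]
  {μ : Measure Ω} {S : ι → Ω → ℝ} {M0 : ℝ}

/-! ### integrals over the coordinates off `K` -/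

/-- the marginal weight of a larger set of coordinates -/
theorem int_wn_glue' (hG : GM μ S M0) (k x : ℝ) {K K' : Finset ι} (hK : K ⊆ K')
    {Ψ : (ι → ℝ) → ℝ} (hd : H646.Dep K' Ψ) (hΨ : EG Ψ) (z : ι → ℝ) :
    ∫ y, wn (gs ι) K' (Zxm μ k S x) (glue K z y) * Ψ (glue K z y) ∂(gI ι) =
      wn (gs ι) K (Zxm μ k S x) z * cx (gs ι) K (Zxm μ k S x) Ψ z := by
  have hw := hG.wt k x
  rw [H646.wn_mul_cx hw]
  have hH : EG fun y => Zxm μ k S x (glue K z y) * Ψ (glue K z y) :=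
    eg_glue ((hG.eg_Zx k x).mul hΨ) K z
  have h1 := integral_J (lev := lvK K') (l := 0) hH
  have h2 : ∀ y, J (lvK K') 0 (fun y => Zxm μ k S x (glue K z y) * Ψ (glue K z y)) y =
      wn (gs ι) K' (Zxm μ k S x) (glue K z y) * Ψ (glue K z y) := by
    intro y
    rw [J_eq]
    have h3 : ∀ y', Zxm μ k S x (glue K z (glue K' y y')) * Ψ (glue K z (glue K' y y')) =
        Zxm μ k S x (glue K' (glue K z y) y') * Ψ (glue K z y) := fun y' => by
      rw [← H646.glue_glue_of_subset hK, hd]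
    simp only [h3]
    rw [integral_mul_const]
    rfl
  simp only [h2] at h1
  exact h1

/-- frozen derivatives -/
lemma pd_fz {K Rw : Finset ι} (hKR : Disjoint K Rw) {F F' : (ι → ℝ) → ℝ} {e : ι}
    (hdep : H646.Dep (K ∪ Rw) F) (h1 : e ∈ Rw → PD e F F') (h0 : e ∉ Rw → ∀ z, F' z = 0)
    (z : ι → ℝ) : PD e (fun y => F (glue K z y)) (fun y => F' (glue K z y)) := by
  by_cases he : e ∈ Rw
  · exact H487.pd_glue K (Finset.disjoint_right.1 hKR he) (h1 he) z
  · by_cases hK : e ∈ K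
    · exact (H487.pd_glue_mem K hK z).congr fun y => (h0 he _).symm
    · have h2 : e ∉ K ∪ Rw := fun h => (Finset.mem_union.1 h).elim hK he
      exact (H487.pd_glue K hK (H487.pd_dep h2 hdep) z).congr fun y => (h0 he _).symm

/-! ### the functions -/

/-- the bracket of the second derivative of the weight -/
noncomputable def u2 (μ : Measure Ω) (k x : ℝ) (S : ι → Ω → ℝ) (K Rw : Finset ι) (e f : ι)
    (z : ι → ℝ) : ℝ := b2 μ k x S K Rw Empty (fun _ => 1) e f z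

/-- the bracket of the third derivative of the weight -/
noncomputable def u3 (μ : Measure Ω) (k x : ℝ) (S : ι → Ω → ℝ) (K Rw : Finset ι) (e f g : ι)
    (z : ι → ℝ) : ℝ := b3 μ k x S K Rw Empty (fun _ => 1) e f g z

/-- first derivative of the normalised bracket -/
noncomputable def N1 (μ : Measure Ω) (k x : ℝ) (S : ι → Ω → ℝ) (K Rw : Finset ι) (R : Type)
    [Fintype R] (h : (R → Ω) → ℝ) (e : ι) (z : ι → ℝ) : ℝ :=
  b1 μ k x S K Rw R h e z - bk μ k x S K R h z * v1 μ k x S K Rw e z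

/-- second derivative of the normalised bracket -/
noncomputable def N2 (μ : Measure Ω) (k x : ℝ) (S : ι → Ω → ℝ) (K Rw : Finset ι) (R : Type)
    [Fintype R] (h : (R → Ω) → ℝ) (e f : ι) (z : ι → ℝ) : ℝ :=
  b2 μ k x S K Rw R h e f z - b1 μ k x S K Rw R h e z * v1 μ k x S K Rw f z -
    b1 μ k x S K Rw R h f z * v1 μ k x S K Rw e z - bk μ k x S K R h z * u2 μ k x S K Rw e f z +
    2 * (bk μ k x S K R h z * (v1 μ k x S K Rw e z * v1 μ k x S K Rw f z))

/-- third derivative of the normalised bracket -/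
noncomputable def N3 (μ : Measure Ω) (k x : ℝ) (S : ι → Ω → ℝ) (K Rw : Finset ι) (R : Type)
    [Fintype R] (h : (R → Ω) → ℝ) (e f g : ι) (z : ι → ℝ) : ℝ :=
  N3a (bk μ k x S K R h z) (fun e => b1 μ k x S K Rw R h e z) (fun e => v1 μ k x S K Rw e z)
    (fun e f => b2 μ k x S K Rw R h e f z) (fun e f => u2 μ k x S K Rw e f z)
    (fun e f g => b3 μ k x S K Rw R h e f g z) (fun e f g => u3 μ k x S K Rw e f g z) e f g

/-- second derivative of the logarithm of the weight -/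
noncomputable def V2 (μ : Measure Ω) (k x : ℝ) (S : ι → Ω → ℝ) (K Rw : Finset ι) (e f : ι)
    (z : ι → ℝ) : ℝ := u2 μ k x S K Rw e f z - v1 μ k x S K Rw e z * v1 μ k x S K Rw f z

section deriv

variable (hG : GM μ S M0) (k x : ℝ) {Rw K : Finset ι} {R : Type} [Fintype R]
  {h : (R → Ω) → ℝ}
include hG

lemma b1_off {e : ι} (he : e ∉ Rw) (h : (R → Ω) → ℝ) (z : ι → ℝ) :
    b1 μ k x S K Rw R h e z = 0 := bk_off hG k x Rw he K h z

lemma b2_off (e : ι) {f : ι} (hf : f ∉ Rw) (h : (R → Ω) → ℝ) (z : ι → ℝ) :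
    b2 μ k x S K Rw R h e f z = 0 := bk_off hG k x Rw hf K _ z

lemma b3_off (e f : ι) {g : ι} (hg : g ∉ Rw) (h : (R → Ω) → ℝ) (z : ι → ℝ) :
    b3 μ k x S K Rw R h e f g z = 0 := bk_off hG k x Rw hg K _ z

lemma N1_off {e : ι} (he : e ∉ Rw) (h : (R → Ω) → ℝ) (z : ι → ℝ) :
    N1 μ k x S K Rw R h e z = 0 := by
  unfold N1 v1
  rw [b1_off hG k x he, b1_off hG k x he]
  ring

lemma N2_off (e : ι) {f : ι} (hf : f ∉ Rw) (h : (R → Ω) → ℝ) (z : ι → ℝ) :
    N2 μ k x S K Rw R h e f z = 0 := by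
  unfold N2 u2 v1
  rw [b1_off hG k x hf, b1_off hG k x hf, b2_off hG k x e hf, b2_off hG k x e hf]
  ring

lemma N3_off (e f : ι) {g : ι} (hg : g ∉ Rw) (h : (R → Ω) → ℝ) (z : ι → ℝ) :
    N3 μ k x S K Rw R h e f g z = 0 := by
  unfold N3 N3a u2 u3 v1
  simp only [b1_off hG k x hg, b2_off hG k x _ hg, b3_off hG k x _ _ hg]
  ring

lemma V2_off (e : ι) {f : ι} (hf : f ∉ Rw) (z : ι → ℝ) : V2 μ k x S K Rw e f z = 0 := by
  unfold V2 u2 v1
  rw [b1_off hG k x hf, b2_off hG k x e hf]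
  ring

lemma v1_off {e : ι} (he : e ∉ Rw) (z : ι → ℝ) : v1 μ k x S K Rw e z = 0 :=
  b1_off hG k x he _ z

variable (hR : Rw ⊆ K)
include hR

lemma pd_b1 (hh : Bm h) (e : ι) {f : ι} (hf : f ∈ Rw) : PD f (b1 μ k x S K Rw R h e)
    (fun z => b2 μ k x S K Rw R h e f z - b1 μ k x S K Rw R h e z * v1 μ k x S K Rw f z) :=
  pd_bk' hG k x Rw hf hR (bm_dr hG k x Rw e hh)

lemma pd_b2 (hh : Bm h) (e f : ι) {g : ι} (hg : g ∈ Rw) : PD g (b2 μ k x S K Rw R h e f)
    (fun z => b3 μ k x S K Rw R h e f g z - b2 μ k x S K Rw R h e f z * v1 μ k x S K Rw g z) :=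
  pd_bk' hG k x Rw hg hR (bm_dr hG k x Rw f (bm_dr hG k x Rw e hh))

lemma pd_v1 (e : ι) {f : ι} (hf : f ∈ Rw) : PD f (v1 μ k x S K Rw e)
    (fun z => V2 μ k x S K Rw e f z) := pd_b1 hG k x hR (Bm.const 1) e hf

lemma pd_u2 (e f : ι) {g : ι} (hg : g ∈ Rw) : PD g (u2 μ k x S K Rw e f)
    (fun z => u3 μ k x S K Rw e f g z - u2 μ k x S K Rw e f z * v1 μ k x S K Rw g z) :=
  pd_b2 hG k x hR (Bm.const 1) e f hg

lemma pd_N0 (hh : Bm h) {e : ι} (he : e ∈ Rw) : PD e (bk μ k x S K R h)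
    (N1 μ k x S K Rw R h e) := pd_bk' hG k x Rw he hR hh

lemma pd_N1 (hh : Bm h) (e : ι) {f : ι} (hf : f ∈ Rw) : PD f (N1 μ k x S K Rw R h e)
    (N2 μ k x S K Rw R h e f) := by
  refine ((pd_b1 hG k x hR hh e hf).sub ((pd_N0 hG k x hR hh hf).mul
    (pd_v1 hG k x hR e hf))).congr fun z => ?_
  unfold N1 N2 V2
  ring

lemma pd_N2 (hh : Bm h) (e f : ι) {g : ι} (hg : g ∈ Rw) : PD g (N2 μ k x S K Rw R h e f)
    (N3 μ k x S K Rw R h e f g) := by
  have p0 := pd_N0 hG k x hR hh hg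
  have pe := pd_v1 hG k x hR e hg
  have pf := pd_v1 hG k x hR f hg
  refine (((((pd_b2 hG k x hR hh e f hg).sub ((pd_b1 hG k x hR hh e hg).mul pf)).sub
    ((pd_b1 hG k x hR hh f hg).mul pe)).sub (p0.mul (pd_u2 hG k x hR e f hg))).add
    ((p0.mul (pe.mul pf)).const_mul 2)).congr fun z => ?_
  unfold N1 N3 N3a V2
  ring

end deriv

end Vale.Agent.P146.H980
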