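import Vale.Agent.P146.H980.C3Cx

/-!
The last square of the row identity in the language of block conditioning: bounds of the
derivatives, parity and the final theorem `c3_cx` (P146, block 07b-C3UP).
-/

open MeasureTheory ProbabilityTheory

namespace Vale.Agent.P146.H980

open Vale.Agent.P157.Lv Vale.Agent.P146.H425 Vale.Agent.P146.H196
open Vale.Agent.P146.H646 (glue wn cx Wt BM)
open Vale.Agent.P146.H487 (gs)
open Vale.Agent.P146.H161 (lvK mix_lvK lc)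
open Vale.Agent.P146.H347 (Sym ac)

set_option linter.unusedSectionVars false

variable {ι : Type} [Fintype ι] [DecidableEq ι] {Ω : Type} [MeasurableSpace Ω]
  {μ : Measure Ω} {S : ι → Ω → ℝ} {M0 : ℝ}

/-! ### two inequalities -/

lemma nm_le {R : Type} [Fintype R] {x : ℝ} (hx0 : 0 ≤ x) (hx1 : x ≤ 1)
    (hR : 1 ≤ Fintype.card R) : nm x R ≤ 2 * Fintype.card R := by
  unfold nm
  have h1 : (1 : ℝ) ≤ Fintype.card R := by exact_mod_cast hR
  rw [abs_of_nonpos (by linarith)]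
  linarith

lemma nm_empty {x : ℝ} (hx0 : 0 ≤ x) (hx1 : x ≤ 1) : nm x Empty ^ 2 ≤ 1 := by
  have e : nm x Empty = |x| := by unfold nm; simp
  rw [e, sq_abs]
  nlinarith

lemma cube_le {s q δ : ℝ} (hq : s ^ 4 ≤ q) (hδ : 0 < δ) :
    s ^ 3 ≤ (δ * s ^ 2 + q / δ) / 2 := by
  have h1 : s ^ 4 / δ ≤ q / δ := div_le_div_of_nonneg_right hq hδ.le
  have h2 : 0 ≤ δ * s ^ 2 + s ^ 4 / δ - 2 * s ^ 3 := by
    have e : δ * s ^ 2 + s ^ 4 / δ - 2 * s ^ 3 = s ^ 2 * (δ - s) ^ 2 / δ := by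
      field_simp
      ring
    rw [e]
    positivity
  linarith

/-! ### growth -/

section growth

variable (hG : GM μ S M0) (k x : ℝ) {Rw K : Finset ι} {R : Type} [Fintype R]
  {h : (R → Ω) → ℝ}
include hG

lemma eg_b1 (hh : Bm h) (e : ι) : EG (b1 μ k x S K Rw R h e) :=
  eg_bk hG k x K (bm_dr hG k x Rw e hh)

lemma eg_b2 (hh : Bm h) (e f : ι) : EG (b2 μ k x S K Rw R h e f) :=
  eg_bk hG k x K (bm_dr hG k x Rw f (bm_dr hG k x Rw e hh))

lemma eg_b3 (hh : Bm h) (e f g : ι) : EG (b3 μ k x S K Rw R h e f g) :=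
  eg_bk hG k x K (bm_dr hG k x Rw g (bm_dr hG k x Rw f (bm_dr hG k x Rw e hh)))

lemma eg_v1 (e : ι) : EG (v1 μ k x S K Rw e) := eg_b1 hG k x (Bm.const 1) e

lemma eg_u2 (e f : ι) : EG (u2 μ k x S K Rw e f) := eg_b2 hG k x (Bm.const 1) e f

lemma eg_u3 (e f g : ι) : EG (u3 μ k x S K Rw e f g) := eg_b3 hG k x (Bm.const 1) e f g

lemma eg_V2 (e f : ι) : EG (V2 μ k x S K Rw e f) :=
  (eg_u2 hG k x e f).sub ((eg_v1 hG k x e).mul (eg_v1 hG k x f))

lemma eg_N1 (hh : Bm h) (e : ι) : EG (N1 μ k x S K Rw R h e) :=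
  (eg_b1 hG k x hh e).sub ((eg_bk hG k x K hh).mul (eg_v1 hG k x e))

lemma eg_N2 (hh : Bm h) (e f : ι) : EG (N2 μ k x S K Rw R h e f) :=
  ((((eg_b2 hG k x hh e f).sub ((eg_b1 hG k x hh e).mul (eg_v1 hG k x f))).sub
    ((eg_b1 hG k x hh f).mul (eg_v1 hG k x e))).sub
    ((eg_bk hG k x K hh).mul (eg_u2 hG k x e f))).add
    (((eg_bk hG k x K hh).mul ((eg_v1 hG k x e).mul (eg_v1 hG k x f))).const_mul 2)

lemma eg_N3 (hh : Bm h) (a b c : ι) : EG (N3 μ k x S K Rw R h a b c) := by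
  have n0 := eg_bk hG k x K hh
  have n1 := fun e => eg_b1 (K := K) (Rw := Rw) hG k x hh e
  have w1 := fun e => eg_v1 (K := K) (Rw := Rw) hG k x e
  have n2 := fun e f => eg_b2 (K := K) (Rw := Rw) hG k x hh e f
  have w2 := fun e f => eg_u2 (K := K) (Rw := Rw) hG k x e f
  unfold N3 N3a
  exact (((((((eg_b3 hG k x hh a b c).sub ((((n2 a b).mul (w1 c)).add ((n2 a c).mul (w1 b))).add
    ((n2 b c).mul (w1 a)))).sub ((((n1 a).mul (w2 b c)).add ((n1 b).mul (w2 a c))).add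
    ((n1 c).mul (w2 a b)))).add ((((((n1 a).mul (w1 b)).mul (w1 c)).add
    (((n1 b).mul (w1 a)).mul (w1 c))).add (((n1 c).mul (w1 a)).mul (w1 b))).const_mul 2)).sub
    (n0.mul (eg_u3 hG k x a b c))).add ((n0.mul ((((w2 a b).mul (w1 c)).add
    ((w2 a c).mul (w1 b))).add ((w2 b c).mul (w1 a)))).const_mul 2)).sub
    ((n0.mul (((w1 a).mul (w1 b)).mul (w1 c))).const_mul 6))

lemma eg_wn (K : Finset ι) : EG (wn (gs ι) K (Zxm μ k S x)) := by
  have h1 := (hG.eg_Zx k x).J (lvK K) 0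
  have e1 : J (lvK K) 0 (Zxm μ k S x) = wn (gs ι) K (Zxm μ k S x) := by
    funext z
    rw [J_eq]
    rfl
  rwa [e1] at h1

lemma eg_half (K : Finset ι) :
    EG fun z => Real.exp (Real.log (wn (gs ι) K (Zxm μ k S x) z) / 2) := by
  have hw := hG.wt k x
  have hwn := eg_wn hG k x K
  have hexp : ∀ z, Real.exp (Real.log (wn (gs ι) K (Zxm μ k S x) z)) =
      wn (gs ι) K (Zxm μ k S x) z := fun z => Real.exp_log (hw.wn_pos K z)
  have h1 : EG (fun z => 1 + wn (gs ι) K (Zxm μ k S x) z) := (EG.const 1).add hwn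
  refine h1.mono ?_ fun y => ?_
  · exact Real.measurable_exp.comp ((Real.measurable_log.comp (hw.meas_wn K)).div_const 2)
  · have hp := hw.wn_pos K y
    rw [abs_of_pos (Real.exp_pos _), abs_of_pos (by linarith)]
    have h2 : Real.exp (Real.log (wn (gs ι) K (Zxm μ k S x) y) / 2) ^ 2 =
        wn (gs ι) K (Zxm μ k S x) y := by
      rw [← Real.exp_nat_mul, ← hexp y]
      congr 1
      rw [hexp y]
      push_cast; ring
    nlinarith [sq_nonneg (Real.exp (Real.log (wn (gs ι) K (Zxm μ k S x) y) / 2) - 1),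
      Real.exp_pos (Real.log (wn (gs ι) K (Zxm μ k S x) y) / 2)]

/-! ### dependence -/

lemma dep_v1 (e : ι) : H646.Dep K (v1 μ k x S K Rw e) := dep_bk hG k x K _

lemma dep_V2 (e f : ι) : H646.Dep K (V2 μ k x S K Rw e f) := fun z z' => by
  unfold V2 u2 v1 b1 b2
  rw [dep_bk hG k x K _ z z', dep_bk hG k x K _ z z', dep_bk hG k x K _ z z']

lemma dep_N1 (e : ι) : H646.Dep K (N1 μ k x S K Rw R h e) := fun z z' => by
  unfold N1 v1 b1
  rw [dep_bk hG k x K _ z z', dep_bk hG k x K _ z z', dep_bk hG k x K _ z z']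

lemma dep_N2 (e f : ι) : H646.Dep K (N2 μ k x S K Rw R h e f) := fun z z' => by
  unfold N2 u2 v1 b1 b2
  simp only [dep_bk hG k x K _ z z']

lemma dep_wn : H646.Dep K fun z => Real.log (wn (gs ι) K (Zxm μ k S x) z) := fun z z' => by
  show Real.log _ = Real.log _
  rw [H646.dep_wn K z z']

/-! ### the sums of squares -/


end growth

section sums

variable (hG : GM μ S M0) (k : ℝ) {x : ℝ} (Rw K : Finset ι)
include hG

lemma v1_eq (x : ℝ) (e : ι) (z : ι → ℝ) : v1 μ k x S K Rw e z =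
    x * ∫ s, Sr Rw k S e s ∂(r1l μ k x S K z) := by
  have hb := bm_row hG k Rw e
  unfold v1 b1
  have e1 : dR (Sr Rw k S) x e (fun _ : Empty → Ω => (1 : ℝ)) =
      fun w : Option Empty → Ω => x * Sr Rw k S e (w none) := by
    funext w
    unfold dR
    simp
  rw [e1, bk_cmul hG k x K x (hb.at none), int_r1l hG k x K z hb]
  unfold bk
  congr 2
  funext u
  exact hG.avR_one k none _ u

lemma sum_v1 (hL : ∀ s, (x * k) ^ 2 * ∑ e ∈ Rw, S e s ^ 2 ≤ 1 / 4) (z : ι → ℝ) :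
    ∑ e, v1 μ k x S K Rw e z ^ 2 ≤ (1 / 2 : ℝ) ^ 2 := by
  have i1 := r1l_prob hG k x K z
  have hq := fun e => bq_row hG k Rw e
  calc ∑ e, v1 μ k x S K Rw e z ^ 2
      ≤ ∑ e, x ^ 2 * ∫ s, Sr Rw k S e s ^ 2 ∂(r1l μ k x S K z) := by
        refine Finset.sum_le_sum fun e _ => ?_
        rw [v1_eq hG k Rw K x e z, mul_pow]
        exact mul_le_mul_of_nonneg_left (sq_int_le (hq e)) (sq_nonneg x)
    _ = ∫ s, x ^ 2 * ∑ e, Sr Rw k S e s ^ 2 ∂(r1l μ k x S K z) := by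
        rw [integral_const_mul, integral_finsetSum _ fun e _ => ((hq e).pow 2).integrable,
          Finset.mul_sum]
    _ ≤ ∫ _s, (1 / 2 : ℝ) ^ 2 ∂(r1l μ k x S K z) := by
        refine integral_mono ((Bq.const _).mul (Bq.sum _ fun e _ => (hq e).pow 2)).integrable
          (integrable_const _) fun s => ?_
        have h1 : ∑ e, Sr Rw k S e s ^ 2 = k ^ 2 * ∑ e ∈ Rw, S e s ^ 2 := by
          unfold Sr
          rw [Finset.mul_sum, ← Finset.sum_subset (Finset.subset_univ Rw)]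
          · refine Finset.sum_congr rfl fun e he => ?_
            rw [if_pos he]
            ring
          · intro e _ he
            rw [if_neg he]
            ring
        have h2 := hL s
        simp only
        rw [h1, ← mul_assoc, ← mul_pow]
        linarith
    _ = (1 / 2 : ℝ) ^ 2 := by rw [integral_const, probReal_univ, one_smul]

variable {h : (Unit → Ω) → ℝ} {C0 : ℝ}

lemma sum_N1 (hx0 : 0 ≤ x) (hx1 : x ≤ 1) (hh : Measurable h) (hC : ∀ w, |h w| ≤ C0)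
    (z : ι → ℝ) :
    ∑ e, N1 μ k x S K Rw Unit h e z ^ 2 ≤ 10 * C0 ^ 2 * ro μ k x S K Rw 1 z := by
  have r0 := ro_nonneg hG k x Rw K 1 z
  have h0 : bk μ k x S K Unit h z ^ 2 ≤ C0 ^ 2 := by
    rw [← sq_abs]
    exact pow_le_pow_left₀ (abs_nonneg _) (abs_bk_le hG k x K hh hC z) 2
  have n1 : nm x Unit ^ 2 ≤ 4 := by
    have := nm_le (R := Unit) hx0 hx1 (by simp)
    have h2 : 0 ≤ nm x Unit := by unfold nm; positivity
    simp at this
    nlinarith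
  have n2 : nm x Empty ^ 2 ≤ 1 := nm_empty hx0 hx1
  have s1 := sum_b1 hG k x Rw K z hh hC
  have s2 : ∑ e, v1 μ k x S K Rw e z ^ 2 ≤ ro μ k x S K Rw 1 z := by
    have := sum_b1 hG k x Rw K z (R := Empty) (h := fun _ => 1) measurable_const (C0 := 1)
      (fun w => by simp)
    refine this.trans ?_
    calc _ = nm x Empty ^ 2 * ro μ k x S K Rw 1 z := by ring
      _ ≤ 1 * ro μ k x S K Rw 1 z := mul_le_mul_of_nonneg_right n2 r0
      _ = _ := one_mul _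
  have s3 : ∑ e, b1 μ k x S K Rw Unit h e z ^ 2 ≤ 4 * C0 ^ 2 * ro μ k x S K Rw 1 z := by
    refine s1.trans ?_
    refine mul_le_mul_of_nonneg_right ?_ r0
    have := mul_le_mul_of_nonneg_left n1 (sq_nonneg C0)
    linarith
  calc ∑ e, N1 μ k x S K Rw Unit h e z ^ 2
      ≤ ∑ e, (2 * b1 μ k x S K Rw Unit h e z ^ 2 + 2 * C0 ^ 2 * v1 μ k x S K Rw e z ^ 2) := by
        refine Finset.sum_le_sum fun e _ => ?_
        unfold N1
        have h3 := mul_le_mul_of_nonneg_right h0 (sq_nonneg (v1 μ k x S K Rw e z))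
        nlinarith [sq_nonneg (b1 μ k x S K Rw Unit h e z +
          bk μ k x S K Unit h z * v1 μ k x S K Rw e z)]
    _ = 2 * ∑ e, b1 μ k x S K Rw Unit h e z ^ 2 + 2 * C0 ^ 2 * ∑ e, v1 μ k x S K Rw e z ^ 2 := by
        rw [Finset.sum_add_distrib, Finset.mul_sum, Finset.mul_sum]
    _ ≤ _ := by
        have := mul_le_mul_of_nonneg_left s2 (sq_nonneg C0)
        nlinarith

lemma sum_uv (hx0 : 0 ≤ x) (hx1 : x ≤ 1) (z : ι → ℝ) :
    (∑ e, v1 μ k x S K Rw e z ^ 2 ≤ ro μ k x S K Rw 1 z) ∧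
    (∑ e, ∑ f, u2 μ k x S K Rw e f z ^ 2 ≤ 8 * ro μ k x S K Rw 2 z) ∧
    (∑ e, ∑ f, ∑ g, u3 μ k x S K Rw e f g z ^ 2 ≤ 192 * ro μ k x S K Rw 3 z) := by
  have r1 := ro_nonneg hG k x Rw K 1 z
  have r2 := ro_nonneg hG k x Rw K 2 z
  have r3 := ro_nonneg hG k x Rw K 3 z
  have n1 : nm x Empty ^ 2 ≤ 1 := nm_empty hx0 hx1
  have n2 : nm x (Option Empty) ^ 2 ≤ 4 := by
    have := nm_le (R := Option Empty) hx0 hx1 (by simp)
    have h2 : 0 ≤ nm x (Option Empty) := by unfold nm; positivity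
    simp at this
    nlinarith
  have n3 : nm x (Option (Option Empty)) ^ 2 ≤ 16 := by
    have := nm_le (R := Option (Option Empty)) hx0 hx1 (by simp)
    have h2 : 0 ≤ nm x (Option (Option Empty)) := by unfold nm; positivity
    simp at this
    nlinarith
  have m1 := sum_b1 hG k x Rw K z (R := Empty) (h := fun _ => 1) measurable_const (C0 := 1)
    (fun w => by simp)
  have m2 := sum_b2 hG k x Rw K z (R := Empty) (h := fun _ => 1) measurable_const (C0 := 1)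
    (fun w => by simp)
  have m3 := sum_b3 hG k x Rw K z (R := Empty) (h := fun _ => 1) measurable_const (C0 := 1)
    (fun w => by simp)
  have p12 : nm x Empty ^ 2 * nm x (Option Empty) ^ 2 ≤ 1 * 4 :=
    mul_le_mul n1 n2 (sq_nonneg _) (by norm_num)
  have p123 : nm x Empty ^ 2 * nm x (Option Empty) ^ 2 * nm x (Option (Option Empty)) ^ 2 ≤
      1 * 4 * 16 := mul_le_mul p12 n3 (sq_nonneg _) (by norm_num)
  refine ⟨m1.trans ?_, m2.trans ?_, m3.trans ?_⟩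
  · have := mul_le_mul_of_nonneg_right n1 r1
    linarith
  · have := mul_le_mul_of_nonneg_right p12 r2
    linarith
  · have := mul_le_mul_of_nonneg_right p123 r3
    linarith

lemma sum_bb (hx0 : 0 ≤ x) (hx1 : x ≤ 1) (hh : Measurable h) (hC : ∀ w, |h w| ≤ C0)
    (z : ι → ℝ) :
    (∑ e, b1 μ k x S K Rw Unit h e z ^ 2 ≤ 4 * C0 ^ 2 * ro μ k x S K Rw 1 z) ∧
    (∑ e, ∑ f, b2 μ k x S K Rw Unit h e f z ^ 2 ≤ 128 * C0 ^ 2 * ro μ k x S K Rw 2 z) ∧
    (∑ e, ∑ f, ∑ g, b3 μ k x S K Rw Unit h e f g z ^ 2 ≤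
      6912 * C0 ^ 2 * ro μ k x S K Rw 3 z) := by
  have r1 := ro_nonneg hG k x Rw K 1 z
  have r2 := ro_nonneg hG k x Rw K 2 z
  have r3 := ro_nonneg hG k x Rw K 3 z
  have n1 : nm x Unit ^ 2 ≤ 4 := by
    have := nm_le (R := Unit) hx0 hx1 (by simp)
    have h2 : 0 ≤ nm x Unit := by unfold nm; positivity
    simp at this
    nlinarith
  have n2 : nm x (Option Unit) ^ 2 ≤ 16 := by
    have := nm_le (R := Option Unit) hx0 hx1 (by simp)
    have h2 : 0 ≤ nm x (Option Unit) := by unfold nm; positivity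
    simp at this
    nlinarith
  have n3 : nm x (Option (Option Unit)) ^ 2 ≤ 36 := by
    have := nm_le (R := Option (Option Unit)) hx0 hx1 (by simp)
    have h2 : 0 ≤ nm x (Option (Option Unit)) := by unfold nm; positivity
    simp at this
    nlinarith
  have p12 : nm x Unit ^ 2 * nm x (Option Unit) ^ 2 ≤ 4 * 16 :=
    mul_le_mul n1 n2 (sq_nonneg _) (by norm_num)
  have p123 : nm x Unit ^ 2 * nm x (Option Unit) ^ 2 * nm x (Option (Option Unit)) ^ 2 ≤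
      4 * 16 * 36 := mul_le_mul p12 n3 (sq_nonneg _) (by norm_num)
  have c0 := sq_nonneg C0
  refine ⟨(sum_b1 hG k x Rw K z hh hC).trans ?_, (sum_b2 hG k x Rw K z hh hC).trans ?_,
    (sum_b3 hG k x Rw K z hh hC).trans ?_⟩
  · have := mul_le_mul_of_nonneg_left n1 (mul_nonneg c0 r1)
    linarith
  · have := mul_le_mul_of_nonneg_left p12 (mul_nonneg c0 r2)
    linarith
  · have := mul_le_mul_of_nonneg_left p123 (mul_nonneg c0 r3)
    linarith

lemma sum_V2 (hx0 : 0 ≤ x) (hx1 : x ≤ 1) (z : ι → ℝ) :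
    ∑ e, ∑ f, V2 μ k x S K Rw e f z ^ 2 ≤ 18 * ro μ k x S K Rw 2 z := by
  obtain ⟨m1, m2, -⟩ := sum_uv hG k Rw K hx0 hx1 z
  have r1 := ro_nonneg hG k x Rw K 1 z
  have h1 := ro1_sq hG k x Rw K z
  have p1 : 0 ≤ ∑ e, v1 μ k x S K Rw e z ^ 2 := Finset.sum_nonneg fun _ _ => sq_nonneg _
  calc ∑ e, ∑ f, V2 μ k x S K Rw e f z ^ 2
      ≤ ∑ e, ∑ f, (2 * u2 μ k x S K Rw e f z ^ 2 +
          2 * (v1 μ k x S K Rw e z ^ 2 * v1 μ k x S K Rw f z ^ 2)) := by
        refine Finset.sum_le_sum fun e _ => Finset.sum_le_sum fun f _ => ?_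
        unfold V2
        nlinarith [sq_nonneg (u2 μ k x S K Rw e f z +
          v1 μ k x S K Rw e z * v1 μ k x S K Rw f z)]
    _ = 2 * ∑ e, ∑ f, u2 μ k x S K Rw e f z ^ 2 +
          2 * ((∑ e, v1 μ k x S K Rw e z ^ 2) * ∑ e, v1 μ k x S K Rw e z ^ 2) := by
        simp only [Finset.sum_add_distrib, Finset.mul_sum, Finset.sum_mul]
        congr 1
        rw [Finset.sum_comm]
    _ ≤ _ := by
        have h2 := mul_le_mul m1 m1 p1 r1
        nlinarith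

/-- the third moment, replaced by the second and the fourth -/
noncomputable def r3f (μ : Measure Ω) (k x : ℝ) (S : ι → Ω → ℝ) (K Rw : Finset ι) (δ : ℝ)
    (z : ι → ℝ) : ℝ := (δ * q2 μ k x S K Rw z + q4 μ k x S K Rw z / δ) / 2


lemma r3_facts {δ : ℝ} (hδ : 0 < δ) (z : ι → ℝ) :
    0 ≤ q2 μ k x S K Rw z ∧ 0 ≤ r3f μ k x S K Rw δ z ∧
    √(q2 μ k x S K Rw z) ^ 3 ≤ r3f μ k x S K Rw δ z ∧
    q2 μ k x S K Rw z ^ 3 ≤ r3f μ k x S K Rw δ z ^ 2 ∧
    ro μ k x S K Rw 1 z ≤ √(q2 μ k x S K Rw z) ∧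
    ro μ k x S K Rw 3 z ≤ r3f μ k x S K Rw δ z ∧
    ro μ k x S K Rw 2 z * ro μ k x S K Rw 1 z ≤ r3f μ k x S K Rw δ z ∧
    ro μ k x S K Rw 1 z * ro μ k x S K Rw 1 z * ro μ k x S K Rw 1 z ≤
      r3f μ k x S K Rw δ z := by
  have r1 := ro_nonneg hG k x Rw K 1 z
  have r2 := ro_nonneg hG k x Rw K 2 z
  have a1 := ro1_sq hG k x Rw K z
  have a2 := ro2_sq hG k x Rw K z
  have a3 := ro3_le hG k x Rw K hδ z
  rw [ro2_eq hG k x Rw K z] at a1 a2 a3
  rw [ro4_eq hG k x Rw K z] at a2 a3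
  have hq : 0 ≤ q2 μ k x S K Rw z := by rw [← ro2_eq hG k x Rw K z]; exact r2
  set s := √(q2 μ k x S K Rw z) with hs
  have hs0 : 0 ≤ s := Real.sqrt_nonneg _
  have hs2 : s ^ 2 = q2 μ k x S K Rw z := Real.sq_sqrt hq
  have hs4 : s ^ 4 ≤ q4 μ k x S K Rw z := by
    calc s ^ 4 = (s ^ 2) ^ 2 := by ring
      _ ≤ _ := by rw [hs2]; exact a2
  have c1 : s ^ 3 ≤ r3f μ k x S K Rw δ z := by
    unfold r3f
    rw [← hs2]
    exact cube_le hs4 hδ
  have hr : 0 ≤ r3f μ k x S K Rw δ z := (pow_nonneg hs0 3).trans c1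
  have b1' : ro μ k x S K Rw 1 z ≤ s := Real.le_sqrt_of_sq_le a1
  refine ⟨hq, hr, c1, ?_, b1', a3, ?_, ?_⟩
  · rw [← hs2]
    calc (s ^ 2) ^ 3 = (s ^ 3) ^ 2 := by ring
      _ ≤ _ := pow_le_pow_left₀ (pow_nonneg hs0 3) c1 2
  · rw [ro2_eq hG k x Rw K z, ← hs2]
    calc s ^ 2 * ro μ k x S K Rw 1 z ≤ s ^ 2 * s := mul_le_mul_of_nonneg_left b1' (sq_nonneg s)
      _ = s ^ 3 := by ring
      _ ≤ _ := c1
  · calc _ = ro μ k x S K Rw 1 z ^ 3 := by ring
      _ ≤ s ^ 3 := pow_le_pow_left₀ r1 b1' 3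
      _ ≤ _ := c1

lemma sum_N3 {δ : ℝ} (hδ : 0 < δ) (hx0 : 0 ≤ x) (hx1 : x ≤ 1) (hh : Measurable h)
    (hC : ∀ w, |h w| ≤ C0) (z : ι → ℝ) :
    ∑ e, ∑ f, ∑ g, N3 μ k x S K Rw Unit h e f g z ^ 2 ≤
      415344 * C0 ^ 2 * r3f μ k x S K Rw δ z := by
  obtain ⟨m1, m2, m3⟩ := sum_uv hG k Rw K hx0 hx1 z
  obtain ⟨n1, n2, n3⟩ := sum_bb hG k Rw K hx0 hx1 hh hC z
  obtain ⟨-, hr, -, -, -, f3, f21, f111⟩ := r3_facts hG k (x := x) Rw K hδ z
  have h0 : bk μ k x S K Unit h z ^ 2 ≤ C0 ^ 2 := by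
    rw [← sq_abs]
    exact pow_le_pow_left₀ (abs_nonneg _) (abs_bk_le hG k x K hh hC z) 2
  have key := N3_le h0 (sq_nonneg C0) n1 n2 n3 m1 m2 m3
  refine le_trans (le_of_eq rfl) (key.trans ?_)
  have c0 := sq_nonneg C0
  have t3 := mul_le_mul_of_nonneg_left f3 c0
  have t21 := mul_le_mul_of_nonneg_left f21 c0
  have t111 := mul_le_mul_of_nonneg_left f111 c0
  nlinarith

end sums

end Vale.Agent.P146.H980
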