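import Vale.Agent.P146.H946.Odd

/-!
Poincaré inequalities for a standard Gaussian measure tilted by the exponential of a function `V`
with a small gradient: for all functions with a suitable centering, for odd functions (when `V` is
even) and for the variance.
-/

open MeasureTheory ProbabilityTheory

namespace Vale.Agent.P146.H980

open Vale.Agent.P157.Lv Vale.Agent.P146.H425 Vale.Agent.P146.H946

set_option linter.unusedSectionVars false

variable {ι : Type} [Fintype ι] [DecidableEq ι]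

/-- A tilt: `V` has the partial derivatives `V'`, of total square at most `L ^ 2 ≤ 1 / 4`. -/
structure Tilt (V : (ι → ℝ) → ℝ) (V' : ι → (ι → ℝ) → ℝ) (L : ℝ) : Prop where
  pd : ∀ e, PD e V (V' e)
  eg : ∀ e, EG (V' e)
  ex : EG fun z => Real.exp (V z / 2)
  bd : ∀ z, ∑ e, V' e z ^ 2 ≤ L ^ 2
  L0 : 0 < L
  L1 : L ≤ 1 / 2

variable {V f : (ι → ℝ) → ℝ} {V' f' : ι → (ι → ℝ) → ℝ} {L : ℝ}

lemma exp_half (V : (ι → ℝ) → ℝ) (z : ι → ℝ) : Real.exp (V z) = Real.exp (V z / 2) ^ 2 := by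
  rw [← Real.exp_nat_mul]
  congr 1
  push_cast
  ring

lemma Tilt.ex1 (h : Tilt V V' L) : EG fun z => Real.exp (V z) := by
  have := h.ex.pow 2
  simpa only [← exp_half] using this

lemma Tilt.pd_half (h : Tilt V V' L) (e : ι) : PD e (fun z => Real.exp (V z / 2))
    (fun z => Real.exp (V z / 2) * (1 / 2 * V' e z)) := by
  intro y t
  have h3 := ((h.pd e y t).const_mul (1 / 2 : ℝ)).exp
  convert h3 using 1
  · funext s
    ring_nf
  · ring_nf

/-- The basic inequality: `f` is centered for the weight `exp (V / 2)`. -/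
theorem tilt_core (h : Tilt V V' L) (hf : EG f) (hd : ∀ e, PD e f (f' e)) (hf' : ∀ e, EG (f' e))
    (h0 : ∫ z, f z * Real.exp (V z / 2) ∂(gI ι) = 0) :
    ∫ z, Real.exp (V z) * f z ^ 2 ∂(gI ι) ≤
      (1 + 4 * L) * ∫ z, Real.exp (V z) * ∑ e, f' e z ^ 2 ∂(gI ι) := by
  have hexp := h.ex1
  have hL0 := h.L0
  have hL1 := h.L1
  have h1 := cc_var_le_one (ι := ι) (F := fun z => f z * Real.exp (V z / 2))
    (F' := fun e z => f' e z * Real.exp (V z / 2) + f z * (Real.exp (V z / 2) * (1 / 2 * V' e z)))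
    (hf.mul h.ex) (fun e => (hd e).mul (h.pd_half e))
    (fun e => ((hf' e).mul h.ex).add (hf.mul (h.ex.mul ((h.eg e).const_mul _))))
  rw [h0] at h1
  simp only [sub_zero] at h1
  have h4 : ∀ z, (f z * Real.exp (V z / 2)) ^ 2 = Real.exp (V z) * f z ^ 2 := fun z => by
    rw [exp_half]; ring
  simp only [h4] at h1
  have hE : ∀ e, EG fun z => (f' e z * Real.exp (V z / 2) +
      f z * (Real.exp (V z / 2) * (1 / 2 * V' e z))) ^ 2 := fun e =>
    (((hf' e).mul h.ex).add (hf.mul (h.ex.mul ((h.eg e).const_mul _)))).pow 2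
  have eS : EG fun z => ∑ e, f' e z ^ 2 := EG.sum Finset.univ fun e _ => (hf' e).pow 2
  have h5 : ∑ e, ∫ z, (f' e z * Real.exp (V z / 2) +
      f z * (Real.exp (V z / 2) * (1 / 2 * V' e z))) ^ 2 ∂(gI ι) ≤
      (1 + L) * ∫ z, Real.exp (V z) * ∑ e, f' e z ^ 2 ∂(gI ι) +
        (1 + 1 / L) * (L ^ 2 / 4) * ∫ z, Real.exp (V z) * f z ^ 2 ∂(gI ι) := by
    rw [← integral_finsetSum _ fun e _ => (hE e).integrable, ← integral_const_mul,
      ← integral_const_mul, ← integral_add]
    · refine integral_mono (EG.sum Finset.univ fun e _ => hE e).integrable ?_ fun z => ?_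
      · exact (((hexp.mul eS).const_mul _).add ((hexp.mul (hf.pow 2)).const_mul _)).integrable
      · show ∑ e, _ ≤ _
        have h5 : ∀ e ∈ (Finset.univ : Finset ι), (f' e z * Real.exp (V z / 2) +
            f z * (Real.exp (V z / 2) * (1 / 2 * V' e z))) ^ 2 ≤
            (1 + L) * (Real.exp (V z) * f' e z ^ 2) +
              (1 + 1 / L) * (Real.exp (V z) * f z ^ 2 / 4 * V' e z ^ 2) := by
          intro e _
          rw [exp_half]
          have h6 : 0 ≤ (L * f' e z - f z * V' e z / 2) ^ 2 := sq_nonneg _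
          have h7 : (1 + L) * (Real.exp (V z / 2) ^ 2 * f' e z ^ 2) +
              (1 + 1 / L) * (Real.exp (V z / 2) ^ 2 * f z ^ 2 / 4 * V' e z ^ 2) -
              (f' e z * Real.exp (V z / 2) + f z * (Real.exp (V z / 2) * (1 / 2 * V' e z))) ^ 2 =
              Real.exp (V z / 2) ^ 2 * ((L * f' e z - f z * V' e z / 2) ^ 2 / L) := by
            field_simp
            ring
          have h8 : 0 ≤ Real.exp (V z / 2) ^ 2 * ((L * f' e z - f z * V' e z / 2) ^ 2 / L) := by
            positivity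
          linarith
        refine (Finset.sum_le_sum h5).trans ?_
        rw [Finset.sum_add_distrib, ← Finset.mul_sum, ← Finset.mul_sum, ← Finset.mul_sum,
          ← Finset.mul_sum]
        have h13 : Real.exp (V z) * f z ^ 2 / 4 * ∑ e, V' e z ^ 2 ≤
            Real.exp (V z) * f z ^ 2 / 4 * L ^ 2 :=
          mul_le_mul_of_nonneg_left (h.bd z) (by positivity)
        have h14 : (0 : ℝ) ≤ 1 + 1 / L := by positivity
        have h15 := mul_le_mul_of_nonneg_left h13 h14
        linarith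
    · exact ((hexp.mul eS).const_mul _).integrable
    · exact ((hexp.mul (hf.pow 2)).const_mul _).integrable
  have hI : 0 ≤ ∫ z, Real.exp (V z) * f z ^ 2 ∂(gI ι) := integral_nonneg fun z => by positivity
  have hK : 0 ≤ ∫ z, Real.exp (V z) * ∑ e, f' e z ^ 2 ∂(gI ι) :=
    integral_nonneg fun z => mul_nonneg (Real.exp_pos _).le
      (Finset.sum_nonneg fun e _ => sq_nonneg _)
  set I := ∫ z, Real.exp (V z) * f z ^ 2 ∂(gI ι) with hIdef
  set K := ∫ z, Real.exp (V z) * ∑ e, f' e z ^ 2 ∂(gI ι) with hKdef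
  have h2 : (1 + 1 / L) * (L ^ 2 / 4) = (L ^ 2 + L) / 4 := by
    field_simp
  rw [h2] at h5
  have h6 := h1.trans h5
  have h3 : I * (1 - (L ^ 2 + L) / 4) ≤ (1 + L) * K := by linarith
  have h4' : (1 + L) ≤ (1 + 4 * L) * (1 - (L ^ 2 + L) / 4) := by nlinarith
  have h5' : 0 < 1 - (L ^ 2 + L) / 4 := by nlinarith
  have h6' : I * (1 - (L ^ 2 + L) / 4) ≤ (1 + 4 * L) * (1 - (L ^ 2 + L) / 4) * K :=
    h3.trans (mul_le_mul_of_nonneg_right h4' hK)
  nlinarith

/-- odd functions have mean zero -/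
lemma int_odd {F : (ι → ℝ) → ℝ} (hF : EG F) (ho : ∀ z, F (-z) = -F z) :
    ∫ z, F z ∂(gI ι) = 0 := by
  have h2 := integral_neg_gI (ι := ι) (F := F) hF.meas
  simp only [ho, integral_neg] at h2
  linarith

/-- **Tilted Poincaré inequality for odd functions.** -/
theorem tilt_odd (h : Tilt V V' L) (hV : ∀ z, V (-z) = V z) (hf : EG f)
    (hd : ∀ e, PD e f (f' e)) (hf' : ∀ e, EG (f' e)) (ho : ∀ z, f (-z) = -f z) :
    ∫ z, Real.exp (V z) * f z ^ 2 ∂(gI ι) ≤
      (1 + 4 * L) * ∫ z, Real.exp (V z) * ∑ e, f' e z ^ 2 ∂(gI ι) :=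
  tilt_core h hf hd hf' (int_odd (hf.mul h.ex) fun z => by rw [ho, hV]; ring)

/-- The mean under the tilted measure. -/
noncomputable def tm (V f : (ι → ℝ) → ℝ) : ℝ :=
  (∫ z, Real.exp (V z) * f z ∂(gI ι)) / ∫ z, Real.exp (V z) ∂(gI ι)

lemma int_pos_of {F : (ι → ℝ) → ℝ} (hF : EG F) (h : ∀ z, 0 < F z) : 0 < ∫ z, F z ∂(gI ι) := by
  rw [integral_pos_iff_support_of_nonneg (fun w => (h _).le) hF.integrable]
  have : Function.support F = Set.univ := Set.eq_univ_of_forall fun w => (h _).ne'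
  rw [this, measure_univ]
  exact one_pos

lemma Tilt.pos (h : Tilt V V' L) : 0 < ∫ z, Real.exp (V z) ∂(gI ι) :=
  int_pos_of h.ex1 fun _ => Real.exp_pos _

lemma Tilt.tm_mul (h : Tilt V V' L) (f : (ι → ℝ) → ℝ) :
    tm V f * ∫ z, Real.exp (V z) ∂(gI ι) = ∫ z, Real.exp (V z) * f z ∂(gI ι) :=
  div_mul_cancel₀ _ h.pos.ne'

/-- the mean is the best constant -/
lemma tm_best (h : Tilt V V' L) (hf : EG f) (c : ℝ) :
    ∫ z, Real.exp (V z) * (f z - c) ^ 2 ∂(gI ι) =
      ∫ z, Real.exp (V z) * (f z - tm V f) ^ 2 ∂(gI ι) +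
        (tm V f - c) ^ 2 * ∫ z, Real.exp (V z) ∂(gI ι) := by
  have hexp := h.ex1
  have h1 := h.tm_mul f
  set m := tm V f with hm
  have e1 : ∀ z, Real.exp (V z) * (f z - c) ^ 2 = (Real.exp (V z) * (f z - m) ^ 2 +
      2 * (m - c) * (Real.exp (V z) * f z)) + ((m - c) ^ 2 - 2 * (m - c) * m) * Real.exp (V z) :=
    fun z => by ring
  simp only [e1]
  have i1 : Integrable (fun z => Real.exp (V z) * (f z - m) ^ 2) (gI ι) :=
    (hexp.mul ((hf.sub (EG.const m)).pow 2)).integrable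
  have i2 : Integrable (fun z => 2 * (m - c) * (Real.exp (V z) * f z)) (gI ι) :=
    ((hexp.mul hf).const_mul _).integrable
  have i3 : Integrable (fun z => ((m - c) ^ 2 - 2 * (m - c) * m) * Real.exp (V z)) (gI ι) :=
    (hexp.const_mul _).integrable
  have i12 : Integrable (fun z => Real.exp (V z) * (f z - m) ^ 2 +
      2 * (m - c) * (Real.exp (V z) * f z)) (gI ι) := i1.add i2
  rw [integral_add i12 i3, integral_add i1 i2, integral_const_mul, integral_const_mul, ← h1]
  ring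

/-- **Tilted Poincaré inequality for the variance.** -/
theorem tilt_var (h : Tilt V V' L) (hf : EG f) (hd : ∀ e, PD e f (f' e))
    (hf' : ∀ e, EG (f' e)) :
    ∫ z, Real.exp (V z) * (f z - tm V f) ^ 2 ∂(gI ι) ≤
      (1 + 4 * L) * ∫ z, Real.exp (V z) * ∑ e, f' e z ^ 2 ∂(gI ι) := by
  set c := (∫ z, f z * Real.exp (V z / 2) ∂(gI ι)) / ∫ z, Real.exp (V z / 2) ∂(gI ι) with hc
  have hp : 0 < ∫ z, Real.exp (V z / 2) ∂(gI ι) :=
    int_pos_of h.ex fun _ => Real.exp_pos _
  have h1 := tilt_core (f := fun z => f z - c) (f' := f') h (hf.sub (EG.const c))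
    (fun e => ((hd e).sub (PD.const c)).congr fun y => by ring) hf' (by
      have e1 : ∀ z, (f z - c) * Real.exp (V z / 2) =
          f z * Real.exp (V z / 2) - c * Real.exp (V z / 2) := fun z => by ring
      simp only [e1]
      rw [integral_sub (hf.mul h.ex).integrable (h.ex.const_mul c).integrable,
        integral_const_mul, hc, div_mul_cancel₀ _ hp.ne', sub_self])
  have h2 := tm_best h hf c
  have h3 : 0 ≤ (tm V f - c) ^ 2 * ∫ z, Real.exp (V z) ∂(gI ι) :=
    mul_nonneg (sq_nonneg _) h.pos.le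
  linarith

end Vale.Agent.P146.H980
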